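import Vale.Agent.N039.Web

/-! Two edges of the same colour on a face are subdivided twice and joined by a new square. The new
web is again spherical and 3-edge-connected. -/

set_option linter.all false

namespace Vale.Agent.N039

open Vale.Agent.P039 Vale.Agent.P039.Sk

variable {B W V : Type}

/-- the initial part of the orbit of `y` which does not meet `u` -/
def Arc (ρ : Equiv.Perm B) (y u x : B) : Prop :=
  ∃ n : ℕ, (ρ ^ n) y = x ∧ ∀ m ≤ n, (ρ ^ m) y ≠ u

section Arc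

variable {ρ : Equiv.Perm B} {y u : B}

theorem Arc.start (h : y ≠ u) : Arc ρ y u y :=
  ⟨0, rfl, fun m hm => by rw [Nat.le_zero.1 hm]; exact h⟩

theorem Arc.not_end : ¬ Arc ρ y u u := fun ⟨n, hn, h⟩ => h n le_rfl hn

theorem Arc.next {x : B} (h : Arc ρ y u x) (hx : ρ x ≠ u) : Arc ρ y u (ρ x) := by
  obtain ⟨n, hn, h⟩ := h
  refine ⟨n + 1, by rw [pow_succ', Equiv.Perm.mul_apply, hn], fun m hm => ?_⟩
  rcases Nat.lt_or_ge n m with h1 | h1
  · rw [show m = n + 1 by omega, pow_succ', Equiv.Perm.mul_apply, hn]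
    exact hx
  · exact h m h1

theorem Arc.prev {x : B} (h : Arc ρ y u (ρ x)) (hx : ρ x ≠ y) : Arc ρ y u x := by
  obtain ⟨n, hn, h⟩ := h
  cases n with
  | zero => exact absurd hn.symm hx
  | succ n =>
    rw [pow_succ', Equiv.Perm.mul_apply] at hn
    exact ⟨n, ρ.injective hn, fun m hm => h m (by omega)⟩

theorem Arc.last (hu : ∃ n : ℕ, (ρ ^ n) y = u) (hy : y ≠ u) {x : B} (hx : ρ x = u) :
    Arc ρ y u x := by
  classical
  have h0 := Nat.find_spec hu
  have h1 : Nat.find hu ≠ 0 := fun h => by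
    rw [h] at h0
    exact hy h0
  obtain ⟨n, hn⟩ := Nat.exists_eq_succ_of_ne_zero h1
  refine ⟨n, ρ.injective ?_, fun m hm => Nat.find_min hu (by omega)⟩
  rw [hn, pow_succ', Equiv.Perm.mul_apply] at h0
  rw [h0, hx]

theorem Arc.not_back (hu : ∃ n : ℕ, (ρ ^ n) y = u) {x : B} (hx : ρ x = y) : ¬ Arc ρ y u x := by
  rintro ⟨n, hn, h⟩
  have h1 : (ρ ^ (n + 1)) y = y := by rw [pow_succ', Equiv.Perm.mul_apply, hn, hx]
  have h2 : ∀ k : ℕ, ∃ m ≤ n, (ρ ^ k) y = (ρ ^ m) y := by
    intro k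
    induction k with
    | zero => exact ⟨0, Nat.zero_le _, rfl⟩
    | succ k ih =>
      obtain ⟨m, hm, hk⟩ := ih
      rcases Nat.lt_or_ge m n with h3 | h3
      · exact ⟨m + 1, h3, by rw [pow_succ', pow_succ', Equiv.Perm.mul_apply, Equiv.Perm.mul_apply,
          hk]⟩
      · refine ⟨0, Nat.zero_le _, ?_⟩
        rw [pow_succ', Equiv.Perm.mul_apply, hk, show m = n by omega, hn, hx]
        rfl
  obtain ⟨k, hk⟩ := hu
  obtain ⟨m, hm, h3⟩ := h2 k
  exact h m hm (h3.symm.trans hk)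

theorem Arc.orbit {x : B} (h : Arc ρ y u x) : ∃ n : ℕ, (ρ ^ n) y = x := h.imp fun _ h => h.1

end Arc

open Classical in
/-- The edges of colour `j + 1` at `u` and at `y` are subdivided twice; the new black vertices are
`b = inr false`, `c = inr true`, the new white vertices `a = inr false`, `d = inr true`. -/
noncomputable def expand (X : Web B W) (j : Fin 3) (u y : B) : Web (B ⊕ Bool) (W ⊕ Bool) where
  e i := if i = j then Equiv.sumCongr (X.e i) (Equiv.refl Bool)
    else if i = j + 1 then ((Equiv.swap (Sum.inl u) (Sum.inr false)).trans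
      (Equiv.swap (Sum.inl y) (Sum.inr true))).trans (Equiv.sumCongr (X.e i) (Equiv.refl Bool))
    else Equiv.sumCongr (X.e i) Equiv.boolNot

section Expand

variable {X : Web B W} {j : Fin 3} {u y : B}

theorem ex0 (t : Bool) : (expand X j u y).e j (Sum.inr t) = Sum.inr t := by
  simp [expand]

theorem ex2 (t : Bool) : (expand X j u y).e (j + 2) (Sum.inr t) = Sum.inr (!t) := by
  simp [expand, fne2 j, fne21 j]

theorem ex1b (h : u ≠ y) :
    (expand X j u y).e (j + 1) (Sum.inr false) = Sum.inl (X.e (j + 1) u) := by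
  simp [expand, fne1 j, Equiv.swap_apply_of_ne_of_ne, h]

theorem ex1c : (expand X j u y).e (j + 1) (Sum.inr true) = Sum.inl (X.e (j + 1) y) := by
  simp [expand, fne1 j, Equiv.swap_apply_of_ne_of_ne]

theorem ex1u : (expand X j u y).e (j + 1) (Sum.inl u) = Sum.inr false := by
  simp [expand, fne1 j, Equiv.swap_apply_of_ne_of_ne]

theorem ex1y (h : u ≠ y) : (expand X j u y).e (j + 1) (Sum.inl y) = Sum.inr true := by
  simp [expand, fne1 j, Equiv.swap_apply_of_ne_of_ne, h.symm]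

theorem exOld {i : Fin 3} {x : B} (h : ¬ (i = j + 1 ∧ (x = u ∨ x = y))) :
    (expand X j u y).e i (Sum.inl x) = Sum.inl (X.e i x) := by
  rcases fcase i j with rfl | rfl | rfl
  · simp [expand]
  · have h1 : x ≠ u := fun h' => h ⟨rfl, Or.inl h'⟩
    have h2 : x ≠ y := fun h' => h ⟨rfl, Or.inr h'⟩
    simp [expand, fne1 j, Equiv.swap_apply_of_ne_of_ne, h1, h2]
  · simp [expand, fne2 j, fne21 j]

theorem q0 {a b c d : Prop} : ¬ (a ↔ d) → ¬ (a ↔ b) ∨ ¬ (c ↔ b) ∨ ¬ (c ↔ d) := by tauto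
theorem q1 {x o : Prop} : ¬ (x ↔ o) → ¬ (o ↔ x) := by tauto
theorem q2 {x o z : Prop} : ¬ (x ↔ o) → ¬ (z ↔ x) ∨ ¬ (z ↔ o) := by tauto
theorem q3 {x o z : Prop} : ¬ (x ↔ o) → ¬ (x ↔ z) ∨ ¬ (o ↔ z) := by tauto
theorem q4 {a b : Prop} : a ∨ b ∨ (¬ a ∧ ¬ b) := by tauto

theorem expand_c3 [Finite B] [Finite W] (h3 : H331.C3 X) (h : u ≠ y) :
    H331.C3 (expand X j u y) := by
  classical
  intro S T h1 h2
  set K : Set (Fin 3 × (B ⊕ Bool)) :=
    {p | ¬ (S p.2 ↔ T ((expand X j u y).e p.1 p.2))} with hK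
  show 3 ≤ K.ncard
  have k0 : ∀ t, (j, Sum.inr t) ∈ K ↔ ¬ (S (Sum.inr t) ↔ T (Sum.inr t)) := fun t => by
    rw [hK, Set.mem_ofPred_eq, ex0]
  have k2 : ∀ t, (j + 2, Sum.inr t) ∈ K ↔ ¬ (S (Sum.inr t) ↔ T (Sum.inr (!t))) := fun t => by
    rw [hK, Set.mem_ofPred_eq, ex2]
  have kb : (j + 1, Sum.inr false) ∈ K ↔
      ¬ (S (Sum.inr false) ↔ T (Sum.inl (X.e (j + 1) u))) := by
    rw [hK, Set.mem_ofPred_eq, ex1b h]
  have kc : (j + 1, Sum.inr true) ∈ K ↔ ¬ (S (Sum.inr true) ↔ T (Sum.inl (X.e (j + 1) y))) := by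
    rw [hK, Set.mem_ofPred_eq, ex1c]
  have ku : (j + 1, Sum.inl u) ∈ K ↔ ¬ (S (Sum.inl u) ↔ T (Sum.inr false)) := by
    rw [hK, Set.mem_ofPred_eq, ex1u]
  have ky : (j + 1, Sum.inl y) ∈ K ↔ ¬ (S (Sum.inl y) ↔ T (Sum.inr true)) := by
    rw [hK, Set.mem_ofPred_eq, ex1y h]
  have n1 := fne1 j
  have n2 := fne2 j
  have n3 := fne12 j
  by_cases hold : ((∃ a, S (Sum.inl a)) ∨ ∃ w, T (Sum.inl w)) ∧
      ((∃ a, ¬ S (Sum.inl a)) ∨ ∃ w, ¬ T (Sum.inl w))
  · refine (h3 (fun a => S (Sum.inl a)) (fun w => T (Sum.inl w)) hold.1 hold.2).trans ?_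
    -- one cut edge on each of the two subdivided edges
    have key : ∀ (x : B) (t : Bool), (¬ (S (Sum.inl x) ↔ T (Sum.inl (X.e (j + 1) x))) →
        (j + 1, Sum.inl x) ∈ K ∨ (j, Sum.inr t) ∈ K ∨ (j + 1, Sum.inr t) ∈ K) →
        ∃ q : Fin 3 × (B ⊕ Bool), (q = (j + 1, Sum.inl x) ∨ q.2 = Sum.inr t) ∧
          (¬ (S (Sum.inl x) ↔ T (Sum.inl (X.e (j + 1) x))) → q ∈ K) := by
      intro x t hx
      by_cases hc : ¬ (S (Sum.inl x) ↔ T (Sum.inl (X.e (j + 1) x)))
      · rcases hx hc with h | h | h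
        · exact ⟨_, Or.inl rfl, fun _ => h⟩
        · exact ⟨_, Or.inr rfl, fun _ => h⟩
        · exact ⟨_, Or.inr rfl, fun _ => h⟩
      · exact ⟨_, Or.inl rfl, fun h => absurd h hc⟩
    obtain ⟨qu, qu1, qu2⟩ := key u false (by rw [ku, k0, kb]; exact q0)
    obtain ⟨qy, qy1, qy2⟩ := key y true (by rw [ky, k0, kc]; exact q0)
    let φ : Fin 3 × B → Fin 3 × (B ⊕ Bool) := fun p =>
      if p = (j + 1, u) then qu else if p = (j + 1, y) then qy else (p.1, Sum.inl p.2)
    have hne : ((j + 1, u) : Fin 3 × B) ≠ (j + 1, y) := fun h' => h (Prod.mk.inj h').2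
    have φu : φ (j + 1, u) = qu := if_pos rfl
    have φy : φ (j + 1, y) = qy := by
      show (if _ then _ else if _ then _ else _) = _
      rw [if_neg hne.symm, if_pos rfl]
    have φo : ∀ p, p ≠ (j + 1, u) → p ≠ (j + 1, y) → φ p = (p.1, Sum.inl p.2) := by
      intro p p1 p2
      show (if _ then _ else if _ then _ else _) = _
      rw [if_neg p1, if_neg p2]
    have cs : ∀ p : Fin 3 × B, p = (j + 1, u) ∨ p = (j + 1, y) ∨
        (p ≠ (j + 1, u) ∧ p ≠ (j + 1, y)) := fun p => q4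
    have back : ∀ p : Fin 3 × B, p = ((match (φ p).2 with
        | Sum.inl _ => (φ p).1
        | Sum.inr _ => j + 1), (match (φ p).2 with
        | Sum.inl x => x
        | Sum.inr false => u
        | Sum.inr true => y)) := by
      intro p
      rcases cs p with rfl | rfl | ⟨p1, p2⟩
      · rw [φu]
        rcases qu1 with rfl | h'
        · rfl
        · rw [h']
      · rw [φy]
        rcases qy1 with rfl | h'
        · rfl
        · rw [h']
      · rw [φo p p1 p2]
    unfold H331.cutc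
    refine Set.ncard_le_ncard_of_injOn φ ?_ ?_ (Set.toFinite _)
    · intro p hp
      rcases cs p with rfl | rfl | ⟨p1, p2⟩
      · rw [φu]; exact qu2 hp
      · rw [φy]; exact qy2 hp
      · rw [φo p p1 p2, hK, Set.mem_ofPred_eq, exOld]
        · exact hp
        · rintro ⟨h4, h5 | h5⟩
          · exact p1 (Prod.ext h4 h5)
          · exact p2 (Prod.ext h4 h5)
    · intro p _ q _ hpq
      rw [back p, back q, hpq]
  · obtain ⟨o, oS, oT⟩ : ∃ o : Prop, (∀ a, S (Sum.inl a) ↔ o) ∧ ∀ w, T (Sum.inl w) ↔ o := by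
      rw [not_and_or] at hold
      rcases hold with h' | h'
      · push Not at h'
        exact ⟨False, fun a => iff_false_intro (h'.1 a), fun w => iff_false_intro (h'.2 w)⟩
      · push Not at h'
        exact ⟨True, fun a => iff_true_intro (h'.1 a), fun w => iff_true_intro (h'.2 w)⟩
    rw [oT] at kb kc
    rw [oS] at ku ky
    have hz : ¬ (T (Sum.inr false) ↔ o) ∨ ¬ (S (Sum.inr false) ↔ o) ∨ ¬ (S (Sum.inr true) ↔ o) ∨
        ¬ (T (Sum.inr true) ↔ o) := by
      by_contra hc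
      simp only [not_or, not_not] at hc
      have a1 : ∀ x, S x ↔ o := by
        rintro (x | _ | _)
        exacts [oS x, hc.2.1, hc.2.2.1]
      have a2 : ∀ x, T x ↔ o := by
        rintro (x | _ | _)
        exacts [oT x, hc.1, hc.2.2.2]
      simp only [a1, a2, exists_const, or_self] at h1 h2
      exact h2 h1
    have three : ∀ p q q' r r' : Fin 3 × (B ⊕ Bool), p ∈ K → (q ∈ K ∨ q' ∈ K) → (r ∈ K ∨ r' ∈ K) →
        p ≠ q → p ≠ q' → p ≠ r → p ≠ r' → q ≠ r → q ≠ r' → q' ≠ r → q' ≠ r' → 3 ≤ K.ncard := by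
      intro p q q' r r' hp hq hr a1 a2 a3 a4 a5 a6 a7 a8
      refine (Set.two_lt_ncard (Set.toFinite K)).2 ?_
      rcases hq with hq | hq <;> rcases hr with hr | hr
      · exact ⟨p, hp, q, hq, r, hr, a1, a3, a5⟩
      · exact ⟨p, hp, q, hq, r', hr, a1, a4, a6⟩
      · exact ⟨p, hp, q', hq, r, hr, a2, a3, a7⟩
      · exact ⟨p, hp, q', hq, r', hr, a2, a4, a8⟩
    have k0f := k0 false
    have k0t := k0 true
    have k2f := k2 false
    have k2t := k2 true
    simp only [Bool.not_false, Bool.not_true] at k2f k2t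
    rcases hz with hz | hz | hz | hz
    · refine three (j + 1, Sum.inl u) (j, Sum.inr false) (j + 1, Sum.inr false)
        (j + 2, Sum.inr true) (j + 1, Sum.inr true) (ku.2 (q1 hz)) (by rw [k0f, kb]; exact q2 hz)
        (by rw [k2t, kc]; exact q2 hz) ?_ ?_ ?_ ?_ ?_ ?_ ?_ ?_ <;> simp
    · refine three (j + 1, Sum.inr false) (j, Sum.inr false) (j + 1, Sum.inl u)
        (j + 2, Sum.inr false) (j + 1, Sum.inl y) (kb.2 hz) (by rw [k0f, ku]; exact q3 hz)
        (by rw [k2f, ky]; exact q3 hz) ?_ ?_ ?_ ?_ ?_ ?_ ?_ ?_ <;> simp [n1, n2, n3, n2.symm, h]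
    · refine three (j + 1, Sum.inr true) (j, Sum.inr true) (j + 1, Sum.inl y)
        (j + 2, Sum.inr true) (j + 1, Sum.inl u) (kc.2 hz) (by rw [k0t, ky]; exact q3 hz)
        (by rw [k2t, ku]; exact q3 hz) ?_ ?_ ?_ ?_ ?_ ?_ ?_ ?_ <;> simp [n1, n2, n3, n2.symm, h.symm]
    · refine three (j + 1, Sum.inl y) (j, Sum.inr true) (j + 1, Sum.inr true)
        (j + 2, Sum.inr false) (j + 1, Sum.inr false) (ky.2 (q1 hz)) (by rw [k0t, kc]; exact q2 hz)
        (by rw [k2f, kb]; exact q2 hz) ?_ ?_ ?_ ?_ ?_ ?_ ?_ ?_ <;> simp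

/-- labels which are constant along the faces bound the number of faces from below -/
theorem le_nf [Finite B] (X : Web B W) (c : Fin 3 → B → V)
    (step : ∀ j b, c j (X.rho j b) = c j b) (surj : ∀ v, ∃ j b, c j b = v) :
    Nat.card V ≤ B893.nf X := by
  classical
  have : ∀ j : Fin 3, Finite (Quotient (Equiv.Perm.SameCycle.setoid (X.rho j))) :=
    fun j => Quot.finite _
  have h1 : ∀ j a b, (X.rho j).SameCycle a b → c j a = c j b := by
    intro j a b h
    obtain ⟨n, -, rfl⟩ := h.exists_pow_eq'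
    induction n with
    | zero => rfl
    | succ n ih =>
      rw [pow_succ', Equiv.Perm.mul_apply, step]
      exact ih ⟨n, rfl⟩
  let φ : (Σ j : Fin 3, Quotient (Equiv.Perm.SameCycle.setoid (X.rho j))) → V :=
    fun p => Quotient.lift (fun b => c p.1 b) (fun a b h => h1 p.1 a b h) p.2
  have h2 : Function.Surjective φ := by
    intro v
    obtain ⟨j, b, h⟩ := surj v
    exact ⟨⟨j, Quotient.mk _ b⟩, h⟩
  have h3 := Nat.card_le_card_of_surjective φ h2
  rw [Nat.card_sigma] at h3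
  exact h3

theorem rho_eq {B W : Type} {X : Web B W} {i : Fin 3} {x z : B}
    (h : X.e (i + 1) z = X.e (i + 2) x) : X.rho i x = z := by
  show (X.e (i + 1)).symm (X.e (i + 2) x) = z
  rw [← h, Equiv.symm_apply_apply]

theorem e_rho (X : Web B W) (i : Fin 3) (x : B) : X.e (i + 1) (X.rho i x) = X.e (i + 2) x :=
  Equiv.apply_symm_apply _ _

theorem expand_nf [Finite B] [Finite V] (L : Lab X V) (h : u ≠ y) (hF : L.c j u = L.c j y) :
    Nat.card V + 2 ≤ B893.nf (expand X j u y) := by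
  classical
  have horb : ∃ n : ℕ, (X.rho j ^ n) y = u := by
    obtain ⟨n, -, hn⟩ := ((L.sameFace j y u).2 hF.symm).exists_pow_eq'
    exact ⟨n, hn⟩
  have cst : ∀ i x, L.c i (X.rho i x) = L.c i x := fun i x => L.step i _ _ (e_rho X i x)
  let A : B → Prop := Arc (X.rho j) y u
  let c : Fin 3 → B ⊕ Bool → V ⊕ Bool := fun i x => match x with
    | Sum.inl x => if i = j ∧ A x then Sum.inr true else Sum.inl (L.c i x)
    | Sum.inr t => if i = j then (if t then Sum.inl (L.c j u) else Sum.inr true)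
      else if i = j + 1 then Sum.inr false else Sum.inl (L.c i (if t then y else u))
  have cA : ∀ x, A x → c j (Sum.inl x) = Sum.inr true := fun x hx => if_pos ⟨rfl, hx⟩
  have cN : ∀ x, ¬ A x → c j (Sum.inl x) = Sum.inl (L.c j x) := fun x hx =>
    if_neg fun h' => hx h'.2
  have cO : ∀ i x, i ≠ j → c i (Sum.inl x) = Sum.inl (L.c i x) := fun i x hi =>
    if_neg fun h' => hi h'.1
  have cb : c j (Sum.inr false) = Sum.inr true := by simp [c]
  have cc : c j (Sum.inr true) = Sum.inl (L.c j u) := by simp [c]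
  have c1 : ∀ t, c (j + 1) (Sum.inr t) = Sum.inr false := fun t => by simp [c, fne1 j]
  have c2b : c (j + 2) (Sum.inr false) = Sum.inl (L.c (j + 2) u) := by simp [c, fne2 j, fne21 j]
  have c2c : c (j + 2) (Sum.inr true) = Sum.inl (L.c (j + 2) y) := by simp [c, fne2 j, fne21 j]
  have hcard : Nat.card (V ⊕ Bool) = Nat.card V + 2 := by
    rw [Nat.card_sum, Nat.card_eq_fintype_card (α := Bool), Fintype.card_bool]
  rw [← hcard]
  refine le_nf _ c ?_ ?_
  · intro i x
    rcases fcase i j with rfl | rfl | rfl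
    · rcases x with x | _ | _
      · have hx : (expand X i u y).e (i + 2) (Sum.inl x) = Sum.inl (X.e (i + 2) x) :=
          exOld fun h' => fne21 i h'.1
        by_cases h1 : X.rho i x = u
        · rw [rho_eq (z := Sum.inr false) (by rw [ex1b h, hx, ← e_rho, h1]), cb,
            cA x (Arc.last horb h.symm h1)]
        by_cases h2 : X.rho i x = y
        · rw [rho_eq (z := Sum.inr true) (by rw [ex1c, hx, ← e_rho, h2]), cc,
            cN x (Arc.not_back horb h2), hF, ← h2, cst]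
        rw [rho_eq (z := Sum.inl (X.rho i x)) (by rw [exOld (by tauto), hx, e_rho])]
        by_cases h3 : A x
        · rw [cA x h3, cA _ (Arc.next h3 h1)]
        · rw [cN x h3, cN _ fun h4 => h3 (Arc.prev h4 h2), cst]
      · rw [rho_eq (z := Sum.inl y) (by rw [ex1y h, ex2]; rfl), cb, cA y (Arc.start h.symm)]
      · rw [rho_eq (z := Sum.inl u) (by rw [ex1u, ex2]; rfl), cc, cN u Arc.not_end]
    · rcases x with x | t
      · rw [rho_eq (z := Sum.inl (X.rho (j + 1) x)) (by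
          rw [exOld fun h' => fne21 j ((f11 j).symm.trans h'.1),
            exOld fun h' => fne1' j ((f12 j).symm.trans h'.1), e_rho]), cO _ _ (fne1 j),
          cO _ _ (fne1 j), cst]
      · rw [rho_eq (z := Sum.inr (!t)) (by rw [f11, f12, ex2, ex0, Bool.not_not]), c1, c1]
    · have hz : ∀ x, (expand X j u y).e (j + 2 + 1) (Sum.inl x) = Sum.inl (X.e (j + 2 + 1) x) :=
        fun x => exOld fun h' => fne1' j ((f21 j).symm.trans h'.1)
      rcases x with x | _ | _
      · by_cases h1 : x = u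
        · rw [h1, rho_eq (z := Sum.inr false) (by rw [f21, f22, ex0, ex1u]), c2b, cO _ _ (fne2 j)]
        by_cases h2 : x = y
        · rw [h2, rho_eq (z := Sum.inr true) (by rw [f21, f22, ex0, ex1y h]), c2c, cO _ _ (fne2 j)]
        rw [rho_eq (z := Sum.inl (X.rho (j + 2) x)) (by
          rw [hz, e_rho, exOld (by tauto)]), cO _ _ (fne2 j), cO _ _ (fne2 j), cst]
      · rw [rho_eq (z := Sum.inl (X.rho (j + 2) u)) (by rw [hz, e_rho, f22, ex1b h]), c2b,
          cO _ _ (fne2 j), cst]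
      · rw [rho_eq (z := Sum.inl (X.rho (j + 2) y)) (by rw [hz, e_rho, f22, ex1c]), c2c,
          cO _ _ (fne2 j), cst]
  · rintro (v | _ | _)
    · obtain ⟨i, x, rfl⟩ := L.surj v
      by_cases hi : i = j
      · subst hi
        by_cases hx : A x
        · refine ⟨i, Sum.inr true, ?_⟩
          obtain ⟨n, rfl⟩ := Arc.orbit hx
          rw [cc, hF]
          congr 1
          exact (L.sameFace i _ _).1 ⟨n, rfl⟩
        · exact ⟨i, Sum.inl x, cN x hx⟩
      · exact ⟨i, Sum.inl x, cO i x hi⟩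
    · exact ⟨j + 1, Sum.inr false, c1 _⟩
    · exact ⟨j, Sum.inr false, cb⟩

/-- the expanded web is spherical and 3-edge-connected -/
theorem expand_ok [Fintype B] [Fintype W] [Fintype V] (L : Lab X V) (hS : (Bz.ofLab L).Sph)
    (h3 : Bz.C3 (Bz.ofLab L)) (h : u ≠ y) (hF : L.c j u = L.c j y) :
    ∃ (V' : Type) (_ : Fintype V') (L' : Lab (expand X j u y) V'),
      (Bz.ofLab L').Sph ∧ Bz.C3 (Bz.ofLab L') := by
  have c3 : H331.C3 (expand X j u y) := expand_c3 (H331.C3_toWeb _ h3) h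
  obtain ⟨V', _, _, ⟨L'⟩⟩ := Final_exists_lab (expand X j u y)
  have d3 := H331.C3_ofLab L' c3
  refine ⟨V', inferInstance, L', ⟨Bz.conn_of_c3 _ d3, ?_⟩, d3⟩
  have h1 := expand_nf L h hF
  have h2 := B893.nf_le' c3
  have h4 := hS.card
  rw [B893.nf_eq L', Nat.card_eq_fintype_card, Nat.card_eq_fintype_card] at h1 h2
  rw [Fintype.card_sum, Fintype.card_bool] at h2 ⊢
  omega

end Expand

end Vale.Agent.N039
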