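import Vale.Agent.N039.Switch
import Vale.Agent.P039.H84.K5

/-! From webs to the graphs of Barnette's conjecture. -/

set_option linter.all false

namespace Vale.Agent.N039

open Vale.Agent.P039 Vale.Agent.P039.Sk SimpleGraph

/-- a Hamiltonian cycle through an edge gives a Hamiltonian path between its ends -/
theorem path_of_cycle {V : Type*} [Fintype V] [DecidableEq V] {H : SimpleGraph V} {a u v : V}
    {p : H.Walk a a} (hp : p.IsHamiltonianCycle) (he : s(u, v) ∈ p.edges) :
    ∃ q : H.Walk u v, q.IsHamiltonian ∧ s(u, v) ∉ q.edges := by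
  have key : ∀ r : H.Walk v v, r.IsHamiltonianCycle → r.snd = u →
      ∃ q : H.Walk u v, q.IsHamiltonian ∧ s(u, v) ∉ q.edges := by
    intro r hr hu
    cases r with
    | nil => exact absurd rfl hr.isCycle.ne_nil
    | @cons _ w _ h t =>
      have h1 : w = u := by simpa using hu
      subst h1
      have h2 := hr.isHamiltonian_tail
      have h3 := hr.isCycle.isTrail.edges_nodup
      rw [Walk.edges_cons, List.nodup_cons, Sym2.eq_swap] at h3
      refine ⟨t, fun x => ?_, h3.1⟩
      have h4 := h2 x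
      simpa using h4
  have hv : v ∈ p.support := hp.mem_support v
  have hr := hp.rotate hv
  have h1 : u ∈ (p.rotate v hv).toSubgraph.neighborSet v := by
    rw [Subgraph.mem_neighborSet, Walk.adj_toSubgraph_iff_mem_edges, Sym2.eq_swap]
    exact (p.rotate_edges v hv).mem_iff.2 he
  rw [hr.isCycle.neighborSet_toSubgraph_endpoint] at h1
  rcases h1 with h1 | h1
  · exact key _ hr h1.symm
  · refine key (p.rotate v hv).reverse ?_ (by rw [Walk.snd_reverse]; exact h1.symm)
    rw [Walk.isHamiltonianCycle_iff_isCycle_and_length_eq] at hr ⊢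
    exact ⟨hr.1.reverse, by rw [Walk.length_reverse, hr.2]⟩

section Webs

variable {B W F : Type} [Fintype B] [Fintype W] [Fintype F] [DecidableEq B] [DecidableEq W]
  {X : Web B W} {L : Lab X F}

theorem adj_web (X : Web B W) (i : Fin 3) (b : B) :
    X.graph.Adj (Sum.inl b) (Sum.inr (X.e i b)) := by
  rw [Web.graph, fromRel_adj]
  exact ⟨by simp, Or.inl ⟨i, b, rfl, rfl⟩⟩

theorem adj_web_iff {X : Web B W} {x y : B ⊕ W} (h : X.graph.Adj x y) :
    ∃ i b, s(x, y) = s(Sum.inl b, Sum.inr (X.e i b)) := by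
  rw [Web.graph, fromRel_adj] at h
  rcases h.2 with ⟨i, b, rfl, rfl⟩ | ⟨i, b, rfl, rfl⟩
  · exact ⟨i, b, rfl⟩
  · exact ⟨i, b, Sym2.eq_swap⟩

/-- the cycle of a matching, with its exact edge set -/
theorem cycle_web (h : X.Sph3 L) {m : B → Fin 3} (hm : Bz.HamM (Bz.ofLab L) m) :
    ∃ (a : B ⊕ W) (p : X.graph.Walk a a), p.IsHamiltonianCycle ∧
      ∀ b i, s(Sum.inl b, Sum.inr (X.e i b)) ∈ p.edges ↔ i ≠ m b := by
  have hm' := H867.ham_of_hamM X L hm
  obtain ⟨a, p, hp, hp1, hp2⟩ := H84.cycle_of_matching X (H867.exists_ne_of_two h.two) h.simple m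
    hm'.bij.injective hm'.conn
  exact ⟨a, p, hp, fun b i => ⟨fun h1 h2 => hp2 b (h2 ▸ h1), hp1 b i⟩⟩

/-- a Hamiltonian path between a black and a white vertex of a face -/
theorem lace_web (h : X.Sph3 L) {j : Fin 3} {u y : B} (hF : L.c j u = L.c j y) :
    ∃ q : X.graph.Walk (Sum.inl u) (Sum.inr (X.e (j + 1) y)), q.IsHamiltonian := by
  have hS : (Bz.ofLab L).Sph := H867.psph_of_sph3 h
  have h3 : Bz.C3 (Bz.ofLab L) := H867.c3_of_sph3 h
  by_cases huy : u = y
  · subst huy
    obtain ⟨m, hm, hj⟩ := H867.webStmt _ _ _ _ hS h3 u j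
    obtain ⟨a, p, hp, he⟩ := cycle_web h hm
    obtain ⟨q, hq, -⟩ := path_of_cycle hp ((he u (j + 1)).2 (by rw [hj]; exact fne1 j))
    exact ⟨q, hq⟩
  obtain ⟨m, hinj, hc, mu, my⟩ := switch_path L hS h3 huy hF
  obtain ⟨a, p, hp, hp1, -⟩ : ∃ (a : B ⊕ W) (p : (H940.MG (switch X j u y) m).Walk a a),
      p.IsHamiltonianCycle ∧ s(Sum.inl u, Sum.inr (X.e (j + 1) y)) ∈ p.edges ∧ True := by
    have hconn := H940.conn_of_closed (switch X j u y) m hinj
      (fun S T hST hS b => hc (· ∈ S) (· ∈ T) hST hS b)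
    have hcyc := H940.mg_isCycles ⟨u, y, huy⟩ hinj hconn
    have hadj : (H940.MG (switch X j u y) m).Adj (Sum.inl u) (Sum.inr (X.e (j + 1) y)) :=
      H940.mg_adj_black.2 ⟨j + 1, mu.symm, by rw [swu]⟩
    obtain ⟨p, hp, hv⟩ := hcyc.exists_cycle_toSubgraph_verts_eq_connectedComponentSupp
      (c := (H940.MG _ m).connectedComponentMk (Sum.inl u)) (v := Sum.inl u) rfl ⟨_, hadj⟩
    have hall : ∀ a, a ∈ p.support := by
      intro a
      rw [← Walk.mem_verts_toSubgraph, hv]
      exact ConnectedComponent.eq.2 (H940.mg_reachable hconn _ _)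
    refine ⟨_, p, ?_, H84.mem_edges_of_isCycles hcyc hp (hall _) hadj, trivial⟩
    rw [Walk.isHamiltonianCycle_iff_isCycle_and_support_count_tail_eq_one]
    refine ⟨hp, fun a => hsol_count hp.support_nodup ?_⟩
    have ha := hall a
    rw [Walk.mem_support_iff] at ha
    rcases ha with rfl | ha
    · exact Walk.end_mem_tail_support hp.not_nil
    · exact ha
  obtain ⟨q, hq, hqe⟩ := path_of_cycle hp hp1
  refine ⟨q.transfer X.graph ?_, fun x => by rw [Walk.support_transfer]; exact hq x⟩
  have key : ∀ b z, s(Sum.inl b, z) ∈ q.edges → X.graph.Adj (Sum.inl b) z := by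
    intro b z he
    obtain ⟨i, hi, rfl⟩ := H940.mg_adj_black.1 (q.adj_of_mem_edges he)
    by_cases h5 : i = j + 1 ∧ (b = u ∨ b = y)
    · obtain ⟨rfl, rfl | rfl⟩ := h5
      · rw [swu] at he
        exact absurd he hqe
      · exact absurd my.symm hi
    · rw [swOld h5]
      exact adj_web X i b
  intro e he
  induction e using Sym2.ind with
  | _ x z =>
    obtain ⟨i, b, h6⟩ := adj_web_iff (H940.mg_le (q.adj_of_mem_edges he))
    rw [h6] at he ⊢
    exact key b _ he

/-- a 2-factor with exactly two cycles which separates two edges of the same colour of a face -/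
theorem two_web (h : X.Sph3 L) {j : Fin 3} {u y : B} (huy : u ≠ y) (hF : L.c j u = L.c j y) :
    ∃ (p : X.graph.Walk (Sum.inl u) (Sum.inl u)) (q : X.graph.Walk (Sum.inl y) (Sum.inl y)),
      p.IsCycle ∧ q.IsCycle ∧ (∀ x, x ∈ p.support ↔ x ∉ q.support) ∧
      s(Sum.inl u, Sum.inr (X.e (j + 1) u)) ∈ p.edges ∧
      s(Sum.inl y, Sum.inr (X.e (j + 1) y)) ∈ q.edges := by
  have hS : (Bz.ofLab L).Sph := H867.psph_of_sph3 h
  have h3 : Bz.C3 (Bz.ofLab L) := H867.c3_of_sph3 h
  obtain ⟨m, hinj, hc, mu, my⟩ := switch_both L hS h3 huy hF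
  obtain ⟨P, Q, hPQ, Py, Pu⟩ := separated L hS huy hF hinj hc mu my
  set H := H940.MG X m with hH
  have hcyc : H.IsCycles := by
    intro v _
    rw [Set.ncard_eq_two]
    rcases v with b | w
    · refine ⟨Sum.inr (X.e (m b + 1) b), Sum.inr (X.e (m b + 2) b), ?_, ?_⟩
      · exact fun hh => fne12 _ (h.simple b _ _ (Sum.inr_injective hh))
      · ext y
        rw [mem_neighborSet, H940.mg_adj_black, Set.mem_insert_iff, Set.mem_singleton_iff]
        constructor
        · rintro ⟨i, hi, rfl⟩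
          rcases fcase i (m b) with h | h | h
          · exact absurd h hi
          · exact Or.inl (by rw [h])
          · exact Or.inr (by rw [h])
        · rintro (rfl | rfl)
          · exact ⟨_, fne1 _, rfl⟩
          · exact ⟨_, fne2 _, rfl⟩
    · obtain ⟨k, hk⟩ := H940.exists_wcol hinj w
      refine ⟨Sum.inl ((X.e (k + 1)).symm w), Sum.inl ((X.e (k + 2)).symm w), ?_, ?_⟩
      · intro hh
        refine fne12 k (h.simple ((X.e (k + 1)).symm w) _ _ ?_)
        rw [Equiv.apply_symm_apply, Sum.inl_injective hh, Equiv.apply_symm_apply]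
      · ext y
        rw [mem_neighborSet, H940.mg_adj_white, Set.mem_insert_iff, Set.mem_singleton_iff]
        constructor
        · rintro ⟨i, hi, rfl⟩
          rcases fcase i k with h | h | h
          · exact absurd h ((hk i).1 hi)
          · exact Or.inl (by rw [h])
          · exact Or.inr (by rw [h])
        · rintro (rfl | rfl)
          · exact ⟨_, (hk _).2 (fne1 _), rfl⟩
          · exact ⟨_, (hk _).2 (fne2 _), rfl⟩
  have hadj : ∀ b i, i ≠ m b → H.Adj (Sum.inl b) (Sum.inr (X.e i b)) := fun b i hi =>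
    H940.mg_adj_black.2 ⟨i, hi, rfl⟩
  have hsep : ¬ H.Reachable (Sum.inl y) (Sum.inl u) := by
    rintro ⟨w⟩
    have key : ∀ (a b : B ⊕ W) (w : H.Walk a b), Sum.elim P Q a → Sum.elim P Q b := by
      intro a b w
      induction w with
      | nil => exact id
      | @cons a b _ hab _ ih =>
        intro ha
        apply ih
        rcases a with a | a
        · obtain ⟨i, hi, rfl⟩ := H940.mg_adj_black.1 hab
          exact (hPQ a i hi).1 ha
        · obtain ⟨i, hi, rfl⟩ := H940.mg_adj_white.1 hab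
          exact (hPQ _ i hi).2 (by rw [Equiv.apply_symm_apply]; exact ha)
    exact Pu (key _ _ w Py)
  have hcov : ∀ x, H.Reachable (Sum.inl u) x ∨ H.Reachable (Sum.inl y) x := by
    have h1 := hc (fun b => H.Reachable (Sum.inl u) (Sum.inl b) ∨ H.Reachable (Sum.inl y) (Sum.inl b))
      (fun w => H.Reachable (Sum.inl u) (Sum.inr w) ∨ H.Reachable (Sum.inl y) (Sum.inr w)) (by
        intro a i hi
        by_cases h5 : i = j + 1 ∧ (a = u ∨ a = y)
        · obtain ⟨rfl, rfl | rfl⟩ := h5
          · rw [swu]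
            exact iff_of_true (Or.inl Reachable.rfl) (Or.inr (hadj y _ my.symm).reachable)
          · rw [swy]
            exact iff_of_true (Or.inr Reachable.rfl) (Or.inl (hadj u _ mu.symm).reachable)
        · rw [swOld h5]
          have h6 := (hadj a i hi).reachable
          exact ⟨Or.imp (·.trans h6) (·.trans h6), Or.imp (·.trans h6.symm) (·.trans h6.symm)⟩)
      ⟨u, Or.inl Reachable.rfl⟩
    rintro (b | w)
    · exact h1 b
    · obtain ⟨k, hk⟩ := H940.exists_wcol hinj w
      have h6 := (hadj _ (k + 1) ((hk _).2 (fne1 k))).reachable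
      rw [Equiv.apply_symm_apply] at h6
      exact (h1 _).imp (·.trans h6) (·.trans h6)
  obtain ⟨p, hp, hpv⟩ := hcyc.exists_cycle_toSubgraph_verts_eq_connectedComponentSupp
    (c := H.connectedComponentMk (Sum.inl u)) (v := Sum.inl u) rfl ⟨_, hadj u _ mu.symm⟩
  obtain ⟨q, hq, hqv⟩ := hcyc.exists_cycle_toSubgraph_verts_eq_connectedComponentSupp
    (c := H.connectedComponentMk (Sum.inl y)) (v := Sum.inl y) rfl ⟨_, hadj y _ my.symm⟩
  have sp : ∀ x, x ∈ p.support ↔ H.Reachable (Sum.inl u) x := fun x => by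
    rw [← Walk.mem_verts_toSubgraph, hpv, ConnectedComponent.mem_supp_iff, ConnectedComponent.eq]
    exact reachable_comm
  have sq : ∀ x, x ∈ q.support ↔ H.Reachable (Sum.inl y) x := fun x => by
    rw [← Walk.mem_verts_toSubgraph, hqv, ConnectedComponent.mem_supp_iff, ConnectedComponent.eq]
    exact reachable_comm
  refine ⟨p.mapLe H940.mg_le, q.mapLe H940.mg_le, hp.mapLe _, hq.mapLe _, fun x => ?_, ?_, ?_⟩
  · rw [Walk.support_mapLe_eq_support, Walk.support_mapLe_eq_support, sp, sq]
    exact ⟨fun h1 h2 => hsep (h2.trans h1.symm), fun h1 => (hcov x).resolve_right h1⟩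
  · rw [Walk.edges_mapLe_eq_edges]
    exact H84.mem_edges_of_isCycles hcyc hp p.start_mem_support (hadj u _ mu.symm)
  · rw [Walk.edges_mapLe_eq_edges]
    exact H84.mem_edges_of_isCycles hcyc hq q.start_mem_support (hadj y _ my.symm)

theorem f3x : ∀ {i k : Fin 3}, i ≠ k → ∃ j, j ≠ i ∧ j ≠ k := by decide

/-- a path with three edges -/
theorem p3_web (h : X.Sph3 L) (b d : B) (i k l : Fin 3) (hbd : b ≠ d)
    (hw : X.e l d = X.e k b) : ∃ m, Bz.HamM (Bz.ofLab L) m ∧ m b = i ∧ m d ≠ l := by
  have hkl : k ≠ l := by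
    rintro rfl
    exact hbd ((X.e k).injective hw).symm
  obtain ⟨j, h1, h2⟩ := f3x hkl
  refine H84.bk_all _ _ _ _ (H867.psph_of_sph3 h) (H867.c3_of_sph3 h) j b d i l ?_ h2.symm
    fun h => hbd h.1
  exact ((Bz.ofLab L).cw_e j k h1.symm b).symm.trans
    ((congrArg ((Bz.ofLab L).cw j) hw.symm).trans ((Bz.ofLab L).cw_e j l h2.symm d))

/-- six Hamiltonian cycles -/
theorem six_web (h : X.Sph3 L) : ∃ m : Fin 3 × Bool → B → Fin 3,
    Function.Injective m ∧ ∀ t, Bz.HamM (Bz.ofLab L) (m t) := by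
  obtain ⟨b, -, -⟩ := H867.exists_ne_of_two h.two
  have key : ∀ t : Fin 3 × Bool, ∃ m, Bz.HamM (Bz.ofLab L) m ∧ m b = t.1 ∧
      m ((X.e (if t.2 then t.1 + 2 else t.1)).symm (X.e (t.1 + 1) b)) ≠
        if t.2 then t.1 + 2 else t.1 := by
    intro t
    refine p3_web h b _ t.1 (t.1 + 1) _ ?_ (Equiv.apply_symm_apply _ _)
    intro hb
    have h1 := h.simple b _ _ ((Equiv.eq_symm_apply _).1 hb)
    revert h1
    split_ifs
    · exact fne21 _
    · exact fne1' _
  choose m h1 h2 h3 using key
  refine ⟨m, ?_, h1⟩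
  have aux : ∀ i, m (i, true) ≠ m (i, false) := by
    intro i hi
    obtain ⟨x, hx⟩ := (h1 (i, true)).1.2 (X.e (i + 1) b)
    change X.e (m (i, true) x) x = _ at hx
    have a1 := h3 (i, true)
    have a2 := h3 (i, false)
    have a3 := h2 (i, true)
    simp only [if_true, Bool.false_eq_true, if_false] at a1 a2 a3
    rw [← hi] at a2
    rcases fcase (m (i, true) x) i with h4 | h4 | h4 <;> rw [h4] at hx
    · exact a2 (by rw [← hx, Equiv.symm_apply_apply, h4])
    · rw [(X.e _).injective hx, a3] at h4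
      exact fne1' i h4
    · exact a1 (by rw [← hx, Equiv.symm_apply_apply, h4])
  rintro ⟨i, s⟩ ⟨i', s'⟩ hm
  obtain rfl : i = i' := (h2 (i, s)).symm.trans ((congrFun hm b).trans (h2 (i', s')))
  cases s <;> cases s'
  · rfl
  · exact absurd hm.symm (aux i)
  · exact absurd hm (aux i)
  · rfl

end Webs

/-- the web of an embedded graph, with the description of its darts -/
theorem model {V : Type*} [Fintype V] [DecidableEq V] (G : SimpleGraph V) (hG : IsBarnette G)
    (R : Rotation G) (hR : R.Spherical) (c : V → Bool) (hc : ∀ u v, G.Adj u v → c u ≠ c v) :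
    ∃ (B W F : Type) (_ : Fintype B) (_ : Fintype W) (_ : Fintype F) (_ : DecidableEq B)
      (_ : DecidableEq W) (X : Web B W) (L : Lab X F) (φ : X.graph ≃g G) (E : R.Face → F),
      X.Sph3 L ∧ (∀ b, c (φ (Sum.inl b)) = true) ∧ (∀ w, c (φ (Sum.inr w)) = false) ∧
      ∀ d : G.Dart, ∃ b j, L.c j b = E (R.faceOf d) ∧
        ((φ (Sum.inl b) = d.fst ∧ φ (Sum.inr (X.e (j + 2) b)) = d.snd) ∨
          (φ (Sum.inl b) = d.snd ∧ φ (Sum.inr (X.e (j + 1) b)) = d.fst)) := by
  classical
  have hconn := H940.connected_of_three hG.connected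
  obtain ⟨P⟩ := exists_pot G hG.cubic R hR hconn c hc
  let EB := (Fintype.equivFin {v // c v = true}).symm
  let EW := (Fintype.equivFin {v // ¬ c v = true}).symm
  let EF := Fintype.equivFin R.Face
  let X := P.web EB EW
  let L := P.lab EB EW EF
  let φ := P.iso EB EW
  have hcard : Fintype.card (Fin (Fintype.card R.Face)) =
      Fintype.card (Fin (Fintype.card {v // c v = true})) + 2 := by
    rw [Fintype.card_fin, Fintype.card_fin]
    have h := hR
    unfold Rotation.Spherical at h
    rw [Nat.card_eq_fintype_card, Nat.card_eq_fintype_card, Nat.card_eq_fintype_card,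
      ← card_bdart G c hc, Fintype.card_congr P.bdEquiv, Fintype.card_prod, Fintype.card_fin] at h
    have h2 : Fintype.card {v // c v = true} = Fintype.card {v // ¬ c v = true} :=
      Fintype.card_congr (P.eqv 0)
    have h3 : Fintype.card V = Fintype.card {v // c v = true} +
        Fintype.card {v // ¬ c v = true} := by
      rw [← Fintype.card_sum]
      exact (Fintype.card_congr (Equiv.sumCompl (fun v => c v = true))).symm
    omega
  have htwo : 2 ≤ Fintype.card (Fin (Fintype.card {v // c v = true})) := by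
    have h1 := Fintype.card_congr (X.e 0)
    have h2 := Fintype.card_congr φ.toEquiv
    have h3 : 4 ≤ Fintype.card V := by
      rw [← Nat.card_eq_fintype_card]; exact hG.connected.1
    rw [Fintype.card_sum] at h2
    omega
  have hS3 : X.Sph3 L := by
    refine ⟨hcard, htwo, H940.ae_of_connected (φ.connected_iff.2 hconn), ?_, ?_⟩
    · intro b i j hij
      by_contra hne
      exact Bn.H476.simple_of_iso hG.cubic X φ b i j hne hij
    · intro S hS hS'
      exact Bn.H476.cut_of_iso hG.cubic hG.connected X φ S hS hS'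
  refine ⟨_, _, _, inferInstance, inferInstance, inferInstance, inferInstance, inferInstance,
    X, L, φ, EF, hS3, fun b => (EB b).2, fun w => Bool.eq_false_iff.2 (EW w).2, fun d => ?_⟩
  have hd : d = P.δ d.fst (P.γ d) := P.eq_δ rfl rfl
  have hn : P.nb d.fst (P.γ d) = d.snd := by
    unfold Pot.nb
    rw [← hd]
  rcases Bool.eq_false_or_eq_true (c d.fst) with h | h
  · obtain ⟨b, hb⟩ := EB.surjective ⟨d.fst, h⟩
    have hb' : (EB b).1 = d.fst := congrArg Subtype.val hb
    refine ⟨b, P.γ d + 1, ?_, Or.inl ⟨hb', ?_⟩⟩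
    · show EF (P.cf _ (EB b).1) = _
      unfold Pot.cf
      rw [hb', f12, ← hd]
    · rw [f12, ← hn, ← hb']
      exact P.web_e EB EW _ b
  · obtain ⟨b, hb⟩ := EB.surjective ⟨d.snd, P.flip' h⟩
    have hb' : (EB b).1 = d.snd := congrArg Subtype.val hb
    refine ⟨b, P.γ d + 2, ?_, Or.inr ⟨hb', ?_⟩⟩
    · show EF (P.cf _ (EB b).1) = _
      have h1 := P.fp_white h (P.γ d + 2)
      rw [f21, ← hd, f22, hn] at h1
      unfold Pot.cf
      rw [hb', f22, ← h1, R.faceOf_facePerm]
    · rw [f21]
      refine (P.web_e EB EW _ b).trans ?_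
      rw [hb', ← hn, P.nb_nb]

end Vale.Agent.N039
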