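import Vale.Agent.N039.Graph
import Vale.Agent.P039Z.Bridge
import Vale.Agent.P235.R2.H105.Del
import Vale.Agent.P039.H560.Two

/-! Hamiltonian cycles and paths with prescribed behaviour in the graphs of Barnette's
conjecture. -/

set_option linter.all false

namespace Vale.Agent.N039

open Vale.Agent.P039 Vale.Agent.P039.Sk SimpleGraph

section General

variable {V : Type*} [Fintype V] [DecidableEq V] {G : SimpleGraph V}

theorem exists_col (h : G.Colorable 2) (x : V) (t : Bool) :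
    ∃ c : V → Bool, (∀ u v, G.Adj u v → c u ≠ c v) ∧ c x = t := by
  obtain ⟨c, hc⟩ := H940.exists_bool h
  by_cases hx : c x = t
  · exact ⟨c, hc, hx⟩
  · exact ⟨fun v => !c v, fun u v huv h => hc u v huv (Bool.not_inj h), by
      cases t <;> simpa using hx⟩

theorem even_dist (hG : G.Connected) {c : V → Bool} (hc : ∀ u v, G.Adj u v → c u ≠ c v)
    (a b : V) : Even (G.dist a b) ↔ c a = c b := by
  obtain ⟨p, hp⟩ := hG.exists_walk_length_eq_dist a b
  rw [← hp, Coloring.even_length_iff_congr (Coloring.mk c fun h => hc _ _ h) p]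
  exact Bool.eq_iff_iff.symm

section

variable {B W : Type} {X : Web B W} (φ : X.graph ≃g G)

theorem nbr {b : B} {z : V} (h : G.Adj (φ (Sum.inl b)) z) : ∃ i, z = φ (Sum.inr (X.e i b)) := by
  obtain ⟨z, rfl⟩ := φ.surjective z
  have h1 := φ.map_rel_iff.1 h
  rw [Web.graph, fromRel_adj] at h1
  rcases h1.2 with ⟨i, b', h2, rfl⟩ | ⟨i, b', -, h2⟩
  · exact ⟨i, by rw [Sum.inl_injective h2]⟩
  · cases h2

theorem black {c : V → Bool} (hw : ∀ w, c (φ (Sum.inr w)) = false) {x : V} (hx : c x = true) :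
    ∃ b, x = φ (Sum.inl b) := by
  obtain ⟨z, rfl⟩ := φ.surjective x
  rcases z with b | w
  · exact ⟨b, rfl⟩
  · rw [hw] at hx
    cases hx

end

theorem cycle_graph {B W F : Type} [Fintype B] [Fintype W] [Fintype F] [DecidableEq B]
    [DecidableEq W] {X : Web B W} {L : Lab X F} (φ : X.graph ≃g G) (h : X.Sph3 L)
    {m : B → Fin 3} (hm : Bz.HamM (Bz.ofLab L) m) :
    ∃ (a : V) (p : G.Walk a a), p.IsHamiltonianCycle ∧
      ∀ b i, s(φ (Sum.inl b), φ (Sum.inr (X.e i b))) ∈ p.edges ↔ i ≠ m b := by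
  obtain ⟨a, p, hp, he⟩ := cycle_web h hm
  obtain ⟨a', q, hq, hqe⟩ := H84.cycle_transport φ hp
  exact ⟨a', q, hq, fun b i => (hqe _ _).trans (he b i)⟩

/-- one avoided edge at a vertex, two contained edges on faces at this vertex -/
theorem three_edges (hG : IsBarnette G) (R : Rotation G) (hR : R.Spherical)
    (a₁ a₂ d₁ d₂ : G.Dart) (u : V) (ha : a₁.fst = a₂.fst) (hu : G.Adj a₁.fst u)
    (h₁ : R.facePerm.SameCycle a₁ d₁) (h₂ : R.facePerm.SameCycle a₂ d₂)
    (hp : Even (G.dist d₁.fst d₂.fst)) (n₁ : s(a₁.fst, u) ≠ d₁.edge)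
    (n₂ : s(a₁.fst, u) ≠ d₂.edge) :
    ∃ (v : V) (p : G.Walk v v), p.IsHamiltonianCycle ∧ d₁.edge ∈ p.edges ∧ d₂.edge ∈ p.edges ∧
      s(a₁.fst, u) ∉ p.edges := by
  obtain ⟨c, hc, hx⟩ := exists_col hG.bipartite a₁.fst true
  obtain ⟨B, W, F, _, _, _, _, _, X, L, φ, E, hS, hb, hw, hd⟩ := model G hG R hR c hc
  rw [even_dist (H940.connected_of_three hG.connected) hc] at hp
  obtain ⟨b0, hb0⟩ := black φ hw hx
  have root : ∀ a d : G.Dart, a.fst = a₁.fst → R.facePerm.SameCycle a d → ∀ b j,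
      L.c j b = E (R.faceOf d) → L.c j b0 = L.c j b := by
    intro a d h1 h2 b j h3
    have h4 : R.faceOf a = R.faceOf d := Quotient.sound h2
    obtain ⟨b', j', h5, ⟨h6, -⟩ | ⟨-, h6⟩⟩ := hd a
    · obtain rfl : b' = b0 := Sum.inl_injective (φ.injective (h6.trans (h1.trans hb0)))
      rw [h4, ← h3] at h5
      obtain rfl := L.cls _ _ _ _ h5
      exact h5
    · have h7 := hw (X.e (j' + 1) b')
      rw [h6, h1, hx] at h7
      cases h7
  have edge : ∀ d : G.Dart, ∃ b j, L.c j b = E (R.faceOf d) ∧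
      d.edge = s(φ (Sum.inl b), φ (Sum.inr (X.e (j + if c d.fst then 2 else 1) b))) := by
    intro d
    obtain ⟨b, j, h1, ⟨h2, h3⟩ | ⟨h2, h3⟩⟩ := hd d
    · refine ⟨b, j, h1, ?_⟩
      rw [← h2, hb, if_pos rfl, h3, h2]
      rfl
    · refine ⟨b, j, h1, ?_⟩
      rw [← h3, hw, if_neg (by simp), h3, h2, Sym2.eq_swap]
      rfl
  obtain ⟨b1, j1, f1, e1⟩ := edge d₁
  obtain ⟨b2, j2, f2, e2⟩ := edge d₂
  rw [← hp] at e2
  rw [hb0] at hu n₁ n₂ ⊢
  obtain ⟨i, rfl⟩ := nbr φ hu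
  obtain ⟨m, hm, m0, m1, m2⟩ := bk2_all _ _ _ _ (H867.psph_of_sph3 hS) (H867.c3_of_sph3 hS)
    (if c d₁.fst then 2 else 1) j1 j2 b0 b1 b2 i (by split_ifs <;> decide)
    (root a₁ d₁ rfl h₁ _ _ f1) (root a₂ d₂ ha.symm h₂ _ _ f2)
    (by rintro ⟨rfl, rfl⟩; exact n₁ e1.symm) (by rintro ⟨rfl, rfl⟩; exact n₂ e2.symm)
  obtain ⟨v, p, hp, he⟩ := cycle_graph φ hS hm
  exact ⟨v, p, hp, e1 ▸ (he _ _).2 m1.symm, e2 ▸ (he _ _).2 m2.symm,
    fun h => (he _ _).1 h m0.symm⟩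

/-- a Hamiltonian path between two vertices of different colours of a face -/
theorem lace (hG : IsBarnette G) (R : Rotation G) (hR : R.Spherical) (d d' : G.Dart)
    (h : R.facePerm.SameCycle d d') (hp : Odd (G.dist d.fst d'.fst)) :
    ∃ p : G.Walk d.fst d'.fst, p.IsHamiltonian := by
  obtain ⟨c, hc, hx⟩ := exists_col hG.bipartite d.fst true
  obtain ⟨B, W, F, _, _, _, _, _, X, L, φ, E, hS, hb, hw, hd⟩ := model G hG R hR c hc
  rw [← Nat.not_even_iff_odd, even_dist (H940.connected_of_three hG.connected) hc, hx] at hp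
  have h4 : R.faceOf d = R.faceOf d' := Quotient.sound h
  obtain ⟨u, j, h1, ⟨h2, -⟩ | ⟨-, h2⟩⟩ := hd d
  · obtain ⟨y, j', h5, ⟨h6, -⟩ | ⟨-, h6⟩⟩ := hd d'
    · exact absurd (h6 ▸ hb y).symm hp
    · rw [h4, ← h5] at h1
      obtain rfl := L.cls _ _ _ _ h1
      obtain ⟨q, hq⟩ := lace_web hS h1
      rw [← h2, ← h6]
      exact ⟨q.map φ.toHom, hq.map φ.toHom φ.bijective⟩
  · have h7 := hw (X.e (j + 1) u)
    rw [h2, hx] at h7
    cases h7

/-- two cycles which cover all vertices and separate two edges of a face -/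
theorem two_cycles (hG : IsBarnette G) (R : Rotation G) (hR : R.Spherical) (d d' : G.Dart)
    (h : R.facePerm.SameCycle d d') (hne : d ≠ d') (hp : Even (G.dist d.fst d'.fst)) :
    ∃ (v w : V) (p : G.Walk v v) (q : G.Walk w w), p.IsCycle ∧ q.IsCycle ∧
      (∀ x, x ∈ p.support ↔ x ∉ q.support) ∧ d.edge ∈ p.edges ∧ d'.edge ∈ q.edges := by
  obtain ⟨c, hc, hx⟩ := exists_col hG.bipartite d.fst false
  obtain ⟨B, W, F, _, _, _, _, _, X, L, φ, E, hS, hb, hw, hd⟩ := model G hG R hR c hc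
  rw [even_dist (H940.connected_of_three hG.connected) hc, hx] at hp
  have h4 : R.faceOf d = R.faceOf d' := Quotient.sound h
  obtain ⟨u, j, h1, ⟨h2, -⟩ | ⟨h2, h3⟩⟩ := hd d
  · have h7 := hb u
    rw [h2, hx] at h7
    cases h7
  obtain ⟨y, j', h5, ⟨h6, -⟩ | ⟨h6, h7⟩⟩ := hd d'
  · have h7 := hb y
    rw [h6, ← hp] at h7
    cases h7
  rw [h4, ← h5] at h1
  obtain rfl := L.cls _ _ _ _ h1
  have huy : u ≠ y := by
    rintro rfl
    exact hne (Dart.ext _ _ (Prod.ext (h3.symm.trans h7) (h2.symm.trans h6)))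
  obtain ⟨p, q, hp, hq, hs, e1, e2⟩ := two_web hS huy h1
  have sup : ∀ {a : B ⊕ W} (r : X.graph.Walk a a) x, φ x ∈ (r.map φ.toHom).support ↔
      x ∈ r.support := fun r x => by
    rw [Walk.support_map]
    exact List.mem_map_of_injective φ.injective
  have edg : ∀ {a : B ⊕ W} (r : X.graph.Walk a a) x y, s(x, y) ∈ r.edges →
      s(φ y, φ x) ∈ (r.map φ.toHom).edges := fun r x y hxy => by
    rw [Walk.edges_map, Sym2.eq_swap]
    exact List.mem_map.2 ⟨_, hxy, rfl⟩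
  refine ⟨_, _, p.map φ.toHom, q.map φ.toHom, hp.map φ.injective, hq.map φ.injective, fun x => ?_,
    ?_, ?_⟩
  · obtain ⟨x, rfl⟩ := φ.surjective x
    rw [sup, sup, hs]
  · have := edg p _ _ e1
    rwa [h2, h3] at this
  · have := edg q _ _ e2
    rwa [h6, h7] at this

/-- every path with three edges lies on a Hamiltonian cycle -/
theorem path3 (hG : IsBarnette G) {a b x y : V} (h1 : G.Adj a b) (h2 : G.Adj b x)
    (h3 : G.Adj x y) (n1 : a ≠ x) (n2 : b ≠ y) :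
    ∃ (v : V) (p : G.Walk v v), p.IsHamiltonianCycle ∧ s(a, b) ∈ p.edges ∧ s(b, x) ∈ p.edges ∧
      s(x, y) ∈ p.edges := by
  obtain ⟨c, hc, hx⟩ := exists_col hG.bipartite b true
  obtain ⟨R, hR⟩ := hG.planar
  obtain ⟨B, W, F, _, _, _, _, _, X, L, φ, E, hS, hb, hw, -⟩ := model G hG R hR c hc
  obtain ⟨b, rfl⟩ := black φ hw hx
  obtain ⟨k', rfl⟩ := nbr φ h1.symm
  obtain ⟨k, rfl⟩ := nbr φ h2
  obtain ⟨y, rfl⟩ := black φ hw (x := y) (by
    have := hc _ _ h3
    rw [hw] at this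
    simpa using this.symm)
  obtain ⟨l, hl⟩ := nbr φ h3.symm
  obtain ⟨i, i1, i2⟩ := f3x (i := k') (k := k) (by rintro rfl; exact n1 rfl)
  obtain ⟨m, hm, m1, m2⟩ := p3_web hS b y i k l (by rintro rfl; exact n2 rfl)
    (Sum.inr_injective (φ.injective hl)).symm
  obtain ⟨v, p, hp, he⟩ := cycle_graph φ hS hm
  refine ⟨v, p, hp, ?_, (he _ _).2 (m1 ▸ i2.symm), ?_⟩
  · rw [Sym2.eq_swap]
    exact (he _ _).2 (m1 ▸ i1.symm)
  · rw [hl, Sym2.eq_swap]
    exact (he _ _).2 m2.symm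

/-- at least six Hamiltonian cycles -/
theorem six (hG : IsBarnette G) :
    6 ≤ {E : Set (Sym2 V) | ∃ (v : V) (p : G.Walk v v), p.IsHamiltonianCycle ∧
      E = {e | e ∈ p.edges}}.ncard := by
  obtain ⟨c, hc⟩ := H940.exists_bool hG.bipartite
  obtain ⟨R, hR⟩ := hG.planar
  obtain ⟨B, W, F, _, _, _, _, _, X, L, φ, E, hS, -⟩ := model G hG R hR c hc
  obtain ⟨m, hi, hm⟩ := six_web hS
  choose v p hp he using fun t => cycle_graph φ hS (hm t)
  have h1 : Function.Injective fun t => {e | e ∈ (p t).edges} := by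
    intro t t' h
    refine hi (funext fun b => ?_)
    by_contra hne
    have h2 : s(φ (Sum.inl b), φ (Sum.inr (X.e (m t b) b))) ∈ {e | e ∈ (p t').edges} :=
      (he t' b _).2 hne
    have h' : {e | e ∈ (p t).edges} = {e | e ∈ (p t').edges} := h
    rw [← h'] at h2
    exact (he t b _).1 h2 rfl
  have h3 := Set.ncard_range_of_injective h1
  rw [Nat.card_eq_fintype_card, Fintype.card_prod, Fintype.card_fin, Fintype.card_bool] at h3
  refine h3.ge.trans (Set.ncard_le_ncard ?_ (Set.toFinite _))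
  rintro _ ⟨t, rfl⟩
  exact ⟨v t, p t, hp t, rfl⟩

end General

section Drawn

open P039Z

variable {V : Type} [Fintype V] [DecidableEq V] {G : SimpleGraph V}

theorem barnette_of (h1 : ∀ v, (G.neighborSet v).ncard = 3) (h2 : G.IsBipartite)
    (h3 : P039Z.ThreeConnected G) (h4 : DrawnIn (EuclideanSpace ℝ (Fin 2)) G) : IsBarnette G :=
  ⟨h1, h2, isPlane_of (P235.ST.H172.plane_of_planar h3.connected (le_trans (by norm_num) h3.1)
    h4.prod_of_plane.planar), h3⟩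

/-- a Hamiltonian path between two vertices at odd distance which can be joined in the plane -/
theorem lace_drawn (hG : IsBarnette G) (u v : V) (hp : Odd (G.dist u v))
    (h : DrawnIn (EuclideanSpace ℝ (Fin 2)) (G ⊔ edge u v)) :
    ∃ p : G.Walk u v, p.IsHamiltonian := by
  have hc := H940.connected_of_three hG.connected
  by_cases huv : G.Adj u v
  · obtain ⟨y, z, hy, -, n1, -, -⟩ := H560.nbrs hG.cubic u v huv
    obtain ⟨y', z', hy', -, n2, -, -⟩ := H560.nbrs hG.cubic v u huv.symm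
    obtain ⟨a, p, hp, -, h1, -⟩ := path3 hG hy.symm huv hy' n1.symm n2
    obtain ⟨q, hq, -⟩ := path_of_cycle hp h1
    exact ⟨q, hq⟩
  have hne : u ≠ v := by
    rintro rfl
    simp at hp
  have hc' : (G ⊔ edge u v).Connected := hc.mono le_sup_left
  obtain ⟨σ, hσ⟩ := P235.ST.H172.plane_of_planar hc' (le_trans (by norm_num) hG.connected.1)
    h.prod_of_plane.planar
  let e : (G ⊔ edge u v).Dart := ⟨(u, v), Or.inr ((edge_adj _ _ _ _).2 ⟨Or.inl ⟨rfl, rfl⟩, hne⟩)⟩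
  have hdel : (G ⊔ edge u v).deleteEdges {e.edge} = G := by
    ext a b
    rw [deleteEdges_adj, sup_adj, adj_edge, Set.mem_singleton_iff]
    constructor
    · rintro ⟨h1 | h1, h2⟩
      · exact h1
      · exact absurd h1.1.symm h2
    · intro h1
      refine ⟨Or.inl h1, fun h2 => huv ?_⟩
      rw [← mem_edgeSet] at h1 ⊢
      have h3 : s(a, b) = s(u, v) := h2
      exact h3 ▸ h1
  have hc2 : ((G ⊔ edge u v).deleteEdges {e.edge}).Connected := hdel.symm ▸ hc
  obtain ⟨σ', h1, -, h2⟩ := P235.R2.H105.del_step hσ e (P235.R2.H105.two_sides hc' hσ e hc2) hc2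
  obtain ⟨d, hd⟩ := h2 e
  have hu : u ∈ P235.onFace σ' d := hd ⟨e, Equiv.Perm.SameCycle.refl _ _, rfl⟩
  have hv : v ∈ P235.onFace σ' d := hd ⟨P235.faceNext σ e,
    Equiv.Perm.sameCycle_apply_right.2 (Equiv.Perm.SameCycle.refl _ _), hσ.fst _⟩
  generalize (G ⊔ edge u v).deleteEdges {e.edge} = G' at hdel σ' h1 d hu hv
  subst hdel
  obtain ⟨d1, a1, rfl⟩ := hu
  obtain ⟨d2, a2, rfl⟩ := hv
  exact lace hG ⟨σ', h1.fst, h1.cyc⟩ h1.euler d1 d2 (a1.symm.trans a2) hp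

end Drawn

end Vale.Agent.N039
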