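import Vale.Agent.P039.H84.K1

/-! The signed count of pairs of disjoint matchings with prescribed values at TWO black vertices
whose cycles have the same forced orientation: the terms have the two phases `-s i` and `-1`,
which lie in one open half plane. -/

set_option linter.all false

open Finset

namespace Vale.Agent.N039

open Vale.Agent.P039 Vale.Agent.P039.H545 Vale.Agent.P039.H84

variable {B V : Type*} {F : B → Fin 3 → Option V} {f g : B → Fin 3}

theorem half_plane {s0 r θ : ℝ} (hs0 : s0 = 1 ∨ s0 = -1) (hr : 0 < r) (hθ : |θ| ≤ 1 / 2) {k : ℕ}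
    (hk : k = 1 ∨ k = 2) :
    0 < ((-1 + (s0 : ℂ) * Complex.I) * ((-(s0 : ℂ) * Complex.I) ^ k *
      ((r : ℂ) * Complex.exp (Complex.I * (θ : ℂ))))).re := by
  have h1 : |Real.sin θ| ≤ 1 / 2 := Real.abs_sin_le_abs.trans hθ
  have h2 : 7 / 8 ≤ Real.cos θ := by
    have h3 := Real.one_sub_sq_div_two_le_cos (x := θ)
    have h4 : θ ^ 2 ≤ (1 / 2) ^ 2 := by
      rw [← sq_abs]
      exact pow_le_pow_left₀ (abs_nonneg _) hθ 2
    linarith
  obtain ⟨h5, h6⟩ := abs_le.1 h1
  rw [mul_comm Complex.I, Complex.exp_mul_I, ← Complex.ofReal_cos, ← Complex.ofReal_sin]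
  generalize Real.cos θ = c at *
  generalize Real.sin θ = s at *
  rcases hs0 with rfl | rfl <;> rcases hk with rfl | rfl <;>
    simp [pow_two, Complex.mul_re, Complex.mul_im] <;> nlinarith

variable [DecidableEq B] [Fintype B]

open Classical in
/-- the signed count with prescribed values on a set `P` of one or two black vertices -/
theorem fourP (F : B → Fin 3 → Option V) (u : B → Fin 3 → ℝ)
    (hcyc : ∀ f g, Mat F f → Mat F g → Disj f g → ∀ C, MinInv F f g C → Odd C.card ∧
      0 < (-1 : ℝ) ^ ((C.card + 1) / 2) * ((∏ b ∈ C, eps (g b - f b) : ℤ) : ℝ) *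
        ∑ b ∈ C, (u b (f b) - u b (g b)))
    (P : Finset B) (hP1 : P.Nonempty) (hP2 : P.card ≤ 2) (jv : B → Fin 3) {s0 : ℝ}
    (hs0 : s0 = 1 ∨ s0 = -1)
    (hor : ∀ f g, Mat F f → Mat F g → Disj f g → ∀ b ∈ P, f b = jv b → ∀ C, MinInv F f g C →
      b ∈ C → 0 < s0 * ∑ b ∈ C, (u b (f b) - u b (g b)))
    (h2 : ∀ f g, Mat F f → Mat F g → Disj f g → ∀ b ∈ P, f b = jv b ∨ g b = jv b)
    (hex : ∃ f g, Mat F f ∧ Mat F g ∧ Disj f g) :
    ∃ f, Mat F f ∧ (∀ b ∈ P, f b = jv b) ∧
      ∑ g ∈ univ.filter (fun g => Mat F g ∧ Disj f g), sg f g ≠ 0 := by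
  by_contra hcon
  push Not at hcon
  set M : ℝ := 1 + ∑ b, ∑ c, |u b c| with hM
  have hM0 : 0 < M := by
    have : 0 ≤ ∑ b, ∑ c, |u b c| := sum_nonneg fun _ _ => sum_nonneg fun _ _ => abs_nonneg _
    linarith
  set t : ℝ := (2 * M)⁻¹ with ht
  have ht0 : 0 < t := inv_pos.2 (by positivity)
  have htM : t * M = 1 / 2 := by
    rw [ht]
    field_simp
  obtain ⟨wk, hwk⟩ : ∃ wk : B → Fin 3 → Fin 3 → ℂ, ∀ b c d,
      wk b c d = if b ∈ P ∧ c ≠ jv b then 0 else wt u t b c d := ⟨_, fun _ _ _ => rfl⟩
  set X : (B → Fin 3) → (B → Fin 3) → ℂ := fun f g => ∏ b, wk b (f b) (g b) with hX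
  have hW0 : ∑ p ∈ prs F, X p.1 p.2 = 0 := by
    have e := sum_finset_product' (prs F) (univ.filter (Mat F))
      (fun f => univ.filter (fun g => Mat F g ∧ Disj f g)) (fun p => by
        rw [mem_prs]; simp) (f := X)
    rw [e]
    refine sum_eq_zero fun f hf => ?_
    have hf' : Mat F f := by simpa using hf
    by_cases hfj : ∀ b ∈ P, f b = jv b
    · have h0 := hcon f hf' hfj
      have h1 : ∀ g, X f g =
          (∏ b, (Complex.I * Complex.exp (Complex.I * ((t * u b (f b) : ℝ) : ℂ)))) *
          ((sg f g : ℤ) : ℂ) := by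
        intro g
        simp only [hX, sg]
        rw [Int.cast_prod, ← prod_mul_distrib]
        refine prod_congr rfl fun b _ => ?_
        rw [hwk, if_neg (by rintro ⟨h, h'⟩; exact h' (hfj b h))]
        unfold wt
        ring
      simp_rw [h1]
      rw [← mul_sum, ← Int.cast_sum, h0]
      simp
    · push Not at hfj
      obtain ⟨b1, hb1, hfj⟩ := hfj
      refine sum_eq_zero fun g _ => ?_
      simp only [hX]
      exact prod_eq_zero (mem_univ b1) (by rw [hwk, if_pos ⟨hb1, hfj⟩])
  have hav := average (F := F) X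
  rw [hW0] at hav
  have hterm : ∀ p ∈ prs F, ∃ (r θ : ℝ) (k : ℕ), 0 < r ∧ |θ| ≤ 1 / 2 ∧ (k = 1 ∨ k = 2) ∧
      ((invs F p.1 p.2).card : ℂ)⁻¹ *
        ∑ T ∈ invs F p.1 p.2, X (flipL p.1 p.2 T) (flipL p.2 p.1 T) =
        (-(s0 : ℂ) * Complex.I) ^ k * ((r : ℂ) * Complex.exp (Complex.I * (θ : ℂ))) := by
    rintro ⟨f, g⟩ hp
    rw [mem_prs] at hp
    obtain ⟨hf, hg, hd⟩ := hp
    simp only at hf hg hd ⊢
    have hd' : Disj g f := fun b => (hd b).symm
    have e1 : ∀ T, X (flipL f g T) (flipL g f T) =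
        ∏ b, (if b ∈ T then wk b (g b) (f b) else wk b (f b) (g b)) := by
      intro T
      simp only [hX]
      refine prod_congr rfl fun b _ => ?_
      by_cases hb : b ∈ T <;> simp [flipL, hb]
    simp_rw [e1]
    rw [H545.sum_flip]
    have hle : ∀ b, |u b (f b)| + |u b (g b)| ≤ ∑ c, |u b c| := by
      intro b
      have h7 : ∑ c ∈ ({f b, g b} : Finset (Fin 3)), |u b c| ≤ ∑ c, |u b c| :=
        sum_le_sum_of_subset_of_nonneg (subset_univ _) fun _ _ _ => abs_nonneg _
      rwa [sum_pair (hd b)] at h7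
    have hbd : ∀ S : Finset B, ∑ b ∈ S, (|u b (f b)| + |u b (g b)|) ≤ M := by
      intro S
      calc ∑ b ∈ S, (|u b (f b)| + |u b (g b)|) ≤ ∑ b, (|u b (f b)| + |u b (g b)|) :=
            sum_le_sum_of_subset_of_nonneg (subset_univ _) fun _ _ _ => by positivity
        _ ≤ ∑ b, ∑ c, |u b c| := sum_le_sum fun b _ => hle b
        _ ≤ M := by rw [hM]; linarith
    set Q : Finset (Cyc F f g) := P.image (Quotient.mk (cyc F f g)) with hQ
    have hmem : ∀ (q : Cyc F f g) b, b ∈ cset q ↔ Quotient.mk (cyc F f g) b = q := by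
      intro q b
      unfold cset
      simp only [mem_filter, mem_univ, true_and]
    -- the factor of every cycle
    have e2 : ∀ q : Cyc F f g, ∃ ρ a : ℝ, 0 < ρ ∧
        |a| ≤ ∑ b ∈ cset q, (|u b (f b)| + |u b (g b)|) ∧
        (∏ b ∈ cset q, wk b (g b) (f b) + ∏ b ∈ cset q, wk b (f b) (g b)) =
        (if q ∈ Q then -(s0 : ℂ) * Complex.I else 1) *
          ((ρ : ℂ) * Complex.exp (Complex.I * ((t * a : ℝ) : ℂ))) := by
      intro q
      have hmin := cset_minInv q
      obtain ⟨ho, hq'⟩ := hcyc f g hf hg hd _ hmin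
      by_cases hq : q ∈ Q
      · obtain ⟨b1, hb1, hb1q⟩ := mem_image.1 hq
        have hb1c : b1 ∈ cset q := (hmem q b1).2 hb1q
        have hneg : ∑ b ∈ cset q, (u b (g b) - u b (f b)) =
            -∑ b ∈ cset q, (u b (f b) - u b (g b)) := by
          rw [← sum_neg_distrib]
          exact sum_congr rfl fun b _ => by ring
        rw [if_pos hq]
        rcases h2 f g hf hg hd b1 hb1 with h | h
        · have hs := hor f g hf hg hd b1 hb1 h _ hmin hb1c
          refine ⟨1, ∑ b ∈ cset q, u b (f b), one_pos, ?_, ?_⟩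
          · refine (abs_sum_le_sum_abs _ _).trans (sum_le_sum fun b _ => ?_)
            have := abs_nonneg (u b (g b))
            linarith
          · have h3 := one_factor u t (cset q) ho hq' hs0 hs
            rw [Complex.ofReal_one, one_mul, ← h3]
            have h4 : ∏ b ∈ cset q, wk b (g b) (f b) = 0 :=
              prod_eq_zero hb1c (by rw [hwk, if_pos ⟨hb1, fun h' => hd b1 (h.trans h'.symm)⟩])
            rw [h4, zero_add]
            refine prod_congr rfl fun b hb => ?_
            rw [hwk, if_neg]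
            rintro ⟨hbP, h'⟩
            have h5 := hor g f hg hf hd' b hbP ((h2 f g hf hg hd b hbP).resolve_left h') _
              (minInv_symm hmin) hb
            rw [hneg] at h5
            linarith
        · have hs := hor g f hg hf hd' b1 hb1 h _ (minInv_symm hmin) hb1c
          refine ⟨1, ∑ b ∈ cset q, u b (g b), one_pos, ?_, ?_⟩
          · refine (abs_sum_le_sum_abs _ _).trans (sum_le_sum fun b _ => ?_)
            have := abs_nonneg (u b (f b))
            linarith
          · obtain ⟨ho2, hq2⟩ := hcyc g f hg hf hd' _ (minInv_symm hmin)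
            have h3 := one_factor u t (cset q) ho2 hq2 hs0 hs
            rw [Complex.ofReal_one, one_mul, ← h3]
            have h4 : ∏ b ∈ cset q, wk b (f b) (g b) = 0 :=
              prod_eq_zero hb1c (by rw [hwk, if_pos ⟨hb1, fun h' => hd b1 (h'.trans h.symm)⟩])
            rw [h4, add_zero]
            refine prod_congr rfl fun b hb => ?_
            rw [hwk, if_neg]
            rintro ⟨hbP, h'⟩
            have h5 := hor f g hf hg hd b hbP ((h2 f g hf hg hd b hbP).resolve_right h') _ hmin hb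
            rw [hneg] at hs
            linarith
      · rw [if_neg hq]
        have hw : ∀ b ∈ cset q, ∀ c d, wk b c d = wt u t b c d := by
          intro b hb c d
          rw [hwk, if_neg]
          rintro ⟨hbP, -⟩
          exact hq (mem_image.2 ⟨b, hbP, (hmem q b).1 hb⟩)
        refine ⟨2 * Real.sin (t * |∑ b ∈ cset q, (u b (f b) - u b (g b))| / 2),
          (∑ b ∈ cset q, (u b (f b) + u b (g b))) / 2, ?_, ?_, ?_⟩
        · refine mul_pos two_pos (Real.sin_pos_of_pos_of_lt_pi ?_ ?_)
          · have hne : ∑ b ∈ cset q, (u b (f b) - u b (g b)) ≠ 0 := by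
              intro h8
              rw [h8, mul_zero] at hq'
              exact lt_irrefl _ hq'
            have := abs_pos.2 hne
            positivity
          · have h9 : |∑ b ∈ cset q, (u b (f b) - u b (g b))| ≤ M := by
              refine (abs_sum_le_sum_abs _ _).trans (le_trans (sum_le_sum fun b _ => ?_) (hbd _))
              exact abs_sub _ _
            have h10 : t * |∑ b ∈ cset q, (u b (f b) - u b (g b))| ≤ 1 / 2 := by
              rw [← htM]; exact mul_le_mul_of_nonneg_left h9 ht0.le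
            have := Real.pi_gt_three
            linarith
        · have h11 : |∑ b ∈ cset q, (u b (f b) + u b (g b))| ≤
              ∑ b ∈ cset q, (|u b (f b)| + |u b (g b)|) :=
            (abs_sum_le_sum_abs _ _).trans (sum_le_sum fun b _ => abs_add_le _ _)
          have h12 := abs_nonneg (∑ b ∈ cset q, (u b (f b) + u b (g b)))
          rw [abs_div, abs_two]
          linarith
        · rw [prod_congr rfl fun b hb => hw b hb _ _, prod_congr rfl fun b hb => hw b hb _ _,
            factor u t (cset q) hd ho hq', one_mul, mul_div_assoc t (∑ b ∈ cset q, (u b (f b) + u b (g b)))]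
    choose ρ a hρ ha hfac using e2
    rw [prod_congr rfl fun q _ => hfac q, prod_mul_distrib, prod_mul_distrib, ← Complex.exp_sum,
      ← mul_sum, prod_ite_mem, univ_inter, prod_const]
    have hfib : ∑ q : Cyc F f g, ∑ b ∈ cset q, (|u b (f b)| + |u b (g b)|) =
        ∑ b, (|u b (f b)| + |u b (g b)|) :=
      sum_fiberwise univ (fun b => (Quotient.mk (cyc F f g) b : Cyc F f g))
        (fun b => |u b (f b)| + |u b (g b)|)
    refine ⟨((invs F f g).card : ℝ)⁻¹ * ∏ q, ρ q, t * ∑ q, a q, Q.card, ?_, ?_, ?_, ?_⟩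
    · have hc := invs_card_pos F f g
      exact mul_pos (inv_pos.2 (by exact_mod_cast hc)) (prod_pos fun q _ => hρ q)
    · rw [abs_mul, abs_of_pos ht0, ← htM]
      refine mul_le_mul_of_nonneg_left ?_ ht0.le
      refine (abs_sum_le_sum_abs _ _).trans ((sum_le_sum fun q _ => ha q).trans ?_)
      rw [hfib]
      exact hbd univ
    · have h1 : Q.card ≤ 2 := card_image_le.trans hP2
      have h3 : 0 < Q.card := card_pos.2 (hP1.image _)
      omega
    · push_cast
      rw [← mul_sum]
      ring
  choose! r θ k hr hθ hk hrw using hterm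
  rw [sum_congr rfl hrw] at hav
  have hav2 := congrArg (fun z => ((-1 + (s0 : ℂ) * Complex.I) * z).re) hav
  simp only [mul_zero, Complex.zero_re] at hav2
  rw [mul_sum, Complex.re_sum] at hav2
  obtain ⟨f, g, hf, hg, hd⟩ := hex
  have : 0 < ∑ p ∈ prs F, ((-1 + (s0 : ℂ) * Complex.I) * ((-(s0 : ℂ) * Complex.I) ^ k p *
      ((r p : ℂ) * Complex.exp (Complex.I * (θ p : ℂ))))).re :=
    sum_pos (fun p hp => half_plane hs0 (hr p hp) (hθ p hp) (hk p hp))
      ⟨(f, g), mem_prs.2 ⟨hf, hg, hd⟩⟩
  linarith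

end Vale.Agent.N039
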