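import Vale.Agent.N039.Exp
import Vale.Agent.P039.Duality

/-! Hamiltonian cycles of the expanded web give Hamiltonian cycles of the switched web; the two
sides of a 2-factor; a Hamiltonian cycle of the switched web through both new edges is a 2-factor
with two cycles of the old web. -/

set_option linter.all false

namespace Vale.Agent.N039

open Vale.Agent.P039 Vale.Agent.P039.Sk Finset

variable {B W V : Type}

open Classical in
/-- the white ends of the edges of colour `j + 1` at `u` and `y` are exchanged -/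
noncomputable def switch (X : Web B W) (j : Fin 3) (u y : B) : Web B W where
  e i := if i = j + 1 then (Equiv.swap u y).trans (X.e i) else X.e i

variable {X : Web B W} {j : Fin 3} {u y : B}

theorem swu : (switch X j u y).e (j + 1) u = X.e (j + 1) y := by simp [switch]

theorem swy : (switch X j u y).e (j + 1) y = X.e (j + 1) u := by simp [switch]

theorem swOld {i : Fin 3} {x : B} (h : ¬ (i = j + 1 ∧ (x = u ∨ x = y))) :
    (switch X j u y).e i x = X.e i x := by
  by_cases hi : i = j + 1
  · have h1 : x ≠ u := fun h' => h ⟨hi, Or.inl h'⟩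
    have h2 : x ≠ y := fun h' => h ⟨hi, Or.inr h'⟩
    simp [switch, hi, Equiv.swap_apply_of_ne_of_ne, h1, h2]
  · simp [switch, hi]

theorem ex_cases (h : u ≠ y) {i : Fin 3} {x : B ⊕ Bool} {t : Bool}
    (he : (expand X j u y).e i x = Sum.inr t) :
    (i = j ∧ x = Sum.inr t) ∨ (i = j + 2 ∧ x = Sum.inr (!t)) ∨
      (i = j + 1 ∧ x = Sum.inl (if t then y else u)) := by
  rcases fcase i j with rfl | rfl | rfl
  · exact Or.inl ⟨rfl, ((expand X i u y).e i).injective (he.trans (ex0 t).symm)⟩
  · refine Or.inr (Or.inr ⟨rfl, ((expand X j u y).e (j + 1)).injective (he.trans ?_)⟩)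
    cases t
    · exact ex1u.symm
    · exact (ex1y h).symm
  · refine Or.inr (Or.inl ⟨rfl, ((expand X j u y).e (j + 2)).injective (he.trans ?_)⟩)
    rw [ex2, Bool.not_not]

/-- a Hamiltonian cycle of the switched web through the new edge at `u`, without the new edge at
`y` -/
theorem switch_path [Fintype B] [Fintype W] [Fintype V] (L : Lab X V) (hS : (Bz.ofLab L).Sph)
    (h3 : Bz.C3 (Bz.ofLab L)) (h : u ≠ y) (hF : L.c j u = L.c j y) :
    ∃ m : B → Fin 3, (Function.Injective fun x => (switch X j u y).e (m x) x) ∧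
      H331.Con (switch X j u y) m ∧ m u ≠ j + 1 ∧ m y = j + 1 := by
  classical
  obtain ⟨V', _, L', hS', h3'⟩ := expand_ok L hS h3 h hF
  obtain ⟨m, ⟨hb, hc⟩, mb, mc⟩ := H84.bk_all _ _ _ _ hS' h3' (j + 1) (Sum.inr false) (Sum.inr true)
    (j + 1) j (L'.step (j + 1) _ _ (by rw [f11, f12, ex2, ex0]; rfl)).symm (fne1' j) (by simp)
  change Function.Bijective fun x => (expand X j u y).e (m x) x at hb
  change ∀ (S : Set (B ⊕ Bool)) (T : Set (W ⊕ Bool)),
    (∀ b i, i ≠ m b → (b ∈ S ↔ (expand X j u y).e i b ∈ T)) → S.Nonempty → ∀ b, b ∈ S at hc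
  have my : m (Sum.inl y) = j + 1 := by
    obtain ⟨x, hx⟩ := hb.2 (Sum.inr true)
    rcases ex_cases h hx with ⟨h1, rfl⟩ | ⟨h1, rfl⟩ | ⟨h1, rfl⟩
    · exact absurd h1 mc
    · exact absurd (mb.symm.trans h1) (fne12 j)
    · exact h1
  have mc2 : m (Sum.inr true) = j + 2 := by
    obtain ⟨x, hx⟩ := hb.2 (Sum.inr false)
    rcases ex_cases h hx with ⟨h1, rfl⟩ | ⟨h1, rfl⟩ | ⟨h1, rfl⟩
    · exact absurd (mb.symm.trans h1) (fne1 j)
    · exact h1
    · rcases fcase (m (Sum.inr true)) j with h2 | h2 | h2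
      · exact absurd h2 mc
      · exfalso
        have h4 := hc (Set.range Sum.inr) (Set.range Sum.inr) (by
          rintro (x | t) i hi
          · rw [exOld]
            · simp
            · rintro ⟨h5, rfl | rfl⟩
              · exact hi (h5.trans h1.symm)
              · exact hi (h5.trans my.symm)
          · rcases fcase i j with rfl | rfl | rfl
            · rw [ex0]; simp
            · cases t
              · exact absurd mb.symm hi
              · exact absurd h2.symm hi
            · rw [ex2]; simp) ⟨_, false, rfl⟩ (Sum.inl u)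
        simp at h4
      · exact h2
  have mu : m (Sum.inl u) ≠ j + 1 := by
    intro h1
    have h2 : (expand X j u y).e (m (Sum.inl u)) (Sum.inl u) =
        (expand X j u y).e (m (Sum.inr true)) (Sum.inr true) := by
      rw [h1, mc2, ex1u, ex2]; rfl
    simpa using hb.1 h2
  let ψ : B → B ⊕ Bool := fun x => if x = y then Sum.inr false else Sum.inl x
  have hψ : ∀ x, (expand X j u y).e (m (ψ x)) (ψ x) =
      Sum.inl ((switch X j u y).e (m (Sum.inl x)) x) := by
    intro x
    by_cases hx : x = y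
    · rw [show ψ x = Sum.inr false from if_pos hx, mb, ex1b h, hx, my, swy]
    · have h5 : ¬ (m (Sum.inl x) = j + 1 ∧ (x = u ∨ x = y)) := by
        rintro ⟨h5, rfl | h6⟩
        · exact mu h5
        · exact hx h6
      rw [show ψ x = Sum.inl x from if_neg hx, exOld h5, swOld h5]
  refine ⟨fun x => m (Sum.inl x), ?_, ?_, mu, my⟩
  · intro x x' hxx
    have h5 : ψ x = ψ x' := hb.1 (by
      show (expand X j u y).e (m (ψ x)) (ψ x) = (expand X j u y).e (m (ψ x')) (ψ x')
      rw [hψ, hψ]
      exact congrArg Sum.inl hxx)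
    by_cases hx : x = y <;> by_cases hx' : x' = y <;> simp [ψ, hx, hx'] at h5 ⊢ <;> exact h5
  · rintro P Q hPQ ⟨a, ha⟩ x
    have hv : P u ↔ Q (X.e (j + 1) y) := by rw [← swu]; exact hPQ u _ mu.symm
    exact hc {x | Sum.elim P (fun _ => P u) x} {w | Sum.elim Q (fun _ => P u) w} (by
      rintro (x | t) i hi
      · by_cases h5 : i = j + 1 ∧ (x = u ∨ x = y)
        · obtain ⟨rfl, rfl | rfl⟩ := h5
          · rw [ex1u]; exact Iff.rfl
          · exact absurd my.symm hi
        · rw [exOld h5, ← swOld h5]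
          exact hPQ x i hi
      · rcases fcase i j with rfl | rfl | rfl
        · rw [ex0]; exact Iff.rfl
        · cases t
          · exact absurd mb.symm hi
          · rw [ex1c]; exact hv
        · rw [ex2]; exact Iff.rfl) ⟨Sum.inl a, ha⟩ (Sum.inl x)

/-- a Hamiltonian cycle of the switched web through both new edges -/
theorem switch_both [Fintype B] [Fintype W] [Fintype V] (L : Lab X V) (hS : (Bz.ofLab L).Sph)
    (h3 : Bz.C3 (Bz.ofLab L)) (h : u ≠ y) (hF : L.c j u = L.c j y) :
    ∃ m : B → Fin 3, (Function.Injective fun x => X.e (m x) x) ∧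
      H331.Con (switch X j u y) m ∧ m u ≠ j + 1 ∧ m y ≠ j + 1 := by
  classical
  obtain ⟨V', _, L', hS', h3'⟩ := expand_ok L hS h3 h hF
  obtain ⟨m, ⟨hb, hc⟩, mb, my⟩ := H84.bk_all _ _ _ _ hS' h3' j (Sum.inr false) (Sum.inl y)
    j (j + 1) (L'.step j _ _ (by rw [ex1y h, ex2]; rfl)).symm (fne1 j) (by simp)
  change Function.Bijective fun x => (expand X j u y).e (m x) x at hb
  change ∀ (S : Set (B ⊕ Bool)) (T : Set (W ⊕ Bool)),
    (∀ b i, i ≠ m b → (b ∈ S ↔ (expand X j u y).e i b ∈ T)) → S.Nonempty → ∀ b, b ∈ S at hc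
  have mc : m (Sum.inr true) = j := by
    obtain ⟨x, hx⟩ := hb.2 (Sum.inr true)
    rcases ex_cases h hx with ⟨h1, rfl⟩ | ⟨h1, rfl⟩ | ⟨h1, rfl⟩
    · exact h1
    · exact absurd (mb.symm.trans h1) (fne2' j)
    · exact absurd h1 my
  have mu : m (Sum.inl u) ≠ j + 1 := by
    intro h1
    have h2 : (expand X j u y).e (m (Sum.inl u)) (Sum.inl u) =
        (expand X j u y).e (m (Sum.inr false)) (Sum.inr false) := by
      rw [h1, mb, ex1u, ex0]
    simpa using hb.1 h2
  have h5 : ∀ x, ¬ (m (Sum.inl x) = j + 1 ∧ (x = u ∨ x = y)) := by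
    rintro x ⟨h5, rfl | rfl⟩
    · exact mu h5
    · exact my h5
  refine ⟨fun x => m (Sum.inl x), ?_, ?_, mu, my⟩
  · intro x x' hxx
    refine Sum.inl_injective (hb.1 ?_)
    show (expand X j u y).e (m (Sum.inl x)) (Sum.inl x) =
      (expand X j u y).e (m (Sum.inl x')) (Sum.inl x')
    rw [exOld (h5 x), exOld (h5 x')]
    exact congrArg Sum.inl hxx
  · rintro P Q hPQ ⟨a, ha⟩ x
    have hv : P u ↔ Q (X.e (j + 1) y) := by rw [← swu]; exact hPQ u _ mu.symm
    have hw : P y ↔ Q (X.e (j + 1) u) := by rw [← swy]; exact hPQ y _ my.symm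
    exact hc {x | Sum.elim P (fun t => if t then P u else P y) x}
      {w | Sum.elim Q (fun t => if t then P y else P u) w} (by
      rintro (x | t) i hi
      · by_cases h5 : i = j + 1 ∧ (x = u ∨ x = y)
        · obtain ⟨rfl, rfl | rfl⟩ := h5
          · rw [ex1u]; exact Iff.rfl
          · rw [ex1y h]; exact Iff.rfl
        · rw [exOld h5, ← swOld h5]
          exact hPQ x i hi
      · rcases fcase i j with rfl | rfl | rfl
        · cases t
          · exact absurd mb.symm hi
          · exact absurd mc.symm hi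
        · cases t
          · rw [ex1b h]; exact hw
          · rw [ex1c]; exact hv
        · rw [ex2]
          cases t <;> exact Iff.rfl) ⟨Sum.inl a, ha⟩ (Sum.inl x)

theorem sum3 {A : Type} [AddCommMonoid A] (F : Fin 3 → A) (k : Fin 3) :
    ∑ i, F i = F k + F (k + 1) + F (k + 2) := by
  have h : ∑ i, F (k + i) = ∑ i, F i := Fintype.sum_equiv (Equiv.addLeft k) _ _ (fun _ => rfl)
  rw [← h, Fin.sum_univ_three, add_zero]

/-- the two sides of the 2-factor outside a perfect matching -/
theorem exists_sides [Fintype B] [Fintype W] [Fintype V] (L : Lab X V) (hS : (Bz.ofLab L).Sph)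
    (m : B → Fin 3) (hm : Function.Injective fun x => X.e (m x) x) :
    ∃ z : V → ZMod 2, ∀ i b, z (L.c (i + 1) b) + z (L.c (i + 2) b) = if i = m b then 0 else 1 := by
  classical
  let D : Matrix (Fin 3 × B) V (ZMod 2) := fun p v =>
    (if L.c (p.1 + 1) p.2 = v then 1 else 0) + if L.c (p.1 + 2) p.2 = v then 1 else 0
  let N : Matrix (Fin 3 × B) (B ⊕ W) (ZMod 2) := fun p x =>
    (if Sum.inl p.2 = x then 1 else 0) + if Sum.inr (X.e p.1 p.2) = x then 1 else 0
  have hD : ∀ z p, D.mulVec z p = z (L.c (p.1 + 1) p.2) + z (L.c (p.1 + 2) p.2) := by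
    intro z p
    simp [D, Matrix.mulVec, dotProduct, add_mul, sum_add_distrib]
  have hN : ∀ z p, N.mulVec z p = z (Sum.inl p.2) + z (Sum.inr (X.e p.1 p.2)) := by
    intro z p
    simp only [N, Matrix.mulVec, dotProduct, add_mul, sum_add_distrib, ite_mul, one_mul, zero_mul,
      sum_ite_eq, mem_univ, if_true]
  have hNb : ∀ (y : Fin 3 × B → ZMod 2) b, N.transpose.mulVec y (Sum.inl b) = ∑ i, y (i, b) := by
    intro y b
    simp only [Matrix.mulVec, dotProduct, Matrix.transpose_apply]
    simp [N, Fintype.sum_prod_type]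
  have hNw : ∀ (y : Fin 3 × B → ZMod 2) w,
      N.transpose.mulVec y (Sum.inr w) = ∑ i, y (i, (X.e i).symm w) := by
    intro y w
    simp only [Matrix.mulVec, dotProduct, Matrix.transpose_apply]
    simp [N, Fintype.sum_prod_type, ← Equiv.eq_symm_apply]
  have z2 : ∀ a b : ZMod 2, a + b = 0 → a = b := by decide
  have h1 := finrank_range_add_one_ge D (by
    intro z hz
    have a1 : ∀ i b, z (L.c (i + 1) b) = z (L.c (i + 2) b) := fun i b =>
      z2 _ _ ((hD z (i, b)).symm.trans (congrFun hz _))
    have a2 : ∀ i b, z (L.c i b) = z (L.c 0 b) := by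
      intro i b
      fin_cases i
      · rfl
      · exact (a1 2 b).symm
      · exact a1 1 b
    have a3 : ∀ b b', z (L.c 0 b) = z (L.c 0 b') := by
      intro b b'
      have := hS.conn b b'
      induction this with
      | rel x y hr =>
        obtain ⟨k, hk⟩ := hr
        rw [← a2 k x, ← a2 k y]
        exact congrArg z hk
      | refl x => rfl
      | symm x y _ ih => exact ih.symm
      | trans x y w _ _ ih1 ih2 => exact ih1.trans ih2
    intro f g
    obtain ⟨i, b, rfl⟩ := L.surj f
    obtain ⟨i', b', rfl⟩ := L.surj g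
    rw [a2, a2 i', a3])
  have h2 := finrank_range_add_one_ge N (by
    intro z hz
    have a1 : ∀ i b, z (Sum.inl b) = z (Sum.inr (X.e i b)) := fun i b =>
      z2 _ _ ((hN z (i, b)).symm.trans (congrFun hz _))
    have a2 := H977.const_of_bd (M := Bz.ofLab L) hS.conn (fun w => z (Sum.inr w))
      (fun b i => (a1 _ b).symm.trans (a1 _ b))
    rintro (f | f) (g | g)
    · rw [a1 0, a1 0]; exact a2 _ _
    · rw [a1 0]; exact a2 _ _
    · rw [a1 0]; exact a2 _ _
    · exact a2 _ _)
  rw [← Matrix.rank_transpose] at h2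
  have h3 := LinearMap.finrank_range_add_finrank_ker N.transpose.mulVecLin
  rw [Module.finrank_fintype_fun_eq_card] at h3
  have z3 : ∀ a b c : ZMod 2, b + c + (c + a) + (a + b) = 0 := by decide
  have h4 : LinearMap.range D.mulVecLin ≤ LinearMap.ker N.transpose.mulVecLin := by
    rintro _ ⟨z, rfl⟩
    rw [LinearMap.mem_ker]
    change N.transpose.mulVec (D.mulVec z) = 0
    funext x
    rcases x with b | w
    · rw [hNb, Fin.sum_univ_three, hD, hD, hD]
      exact z3 _ _ _
    · rw [hNw, Fin.sum_univ_three, hD, hD, hD]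
      simp only [H551.cw_symm1, H551.cw_symm2]
      exact z3 _ _ _
  have h5 : Module.finrank (ZMod 2) (LinearMap.ker N.transpose.mulVecLin) ≤
      Module.finrank (ZMod 2) (LinearMap.range D.mulVecLin) := by
    unfold Matrix.rank at h1 h2
    have c1 := hS.card
    have c2 := Fintype.card_congr (X.e 0)
    rw [Fintype.card_sum] at h2
    rw [Fintype.card_prod, Fintype.card_fin] at h3
    omega
  have h6 := Submodule.eq_of_le_of_finrank_le h4 h5
  have h7 : (fun p : Fin 3 × B => if p.1 = m p.2 then (0 : ZMod 2) else 1) ∈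
      LinearMap.range D.mulVecLin := by
    rw [h6, LinearMap.mem_ker]
    change N.transpose.mulVec _ = 0
    funext x
    rcases x with b | w
    · rw [hNb, sum3 _ (m b), if_pos rfl, if_neg (fne1 _), if_neg (fne2 _)]
      rfl
    · obtain ⟨k, hk⟩ := H940.exists_wcol hm w
      rw [hNw, sum3 _ k, if_pos (by_contra fun h' => (hk k).1 h' rfl), if_neg ((hk _).2 (fne1 _)),
        if_neg ((hk _).2 (fne2 _))]
      rfl
  obtain ⟨z, hz⟩ := h7
  exact ⟨z, fun i b => (hD z (i, b)).symm.trans (congrFun hz (i, b))⟩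

/-- a 2-factor through two edges of the same colour on a face, which becomes connected by the
switch, separates these two edges -/
theorem separated [Fintype B] [Fintype W] [Fintype V] (L : Lab X V) (hS : (Bz.ofLab L).Sph)
    (h : u ≠ y) (hF : L.c j u = L.c j y) {m : B → Fin 3}
    (hm : Function.Injective fun x => X.e (m x) x) (hc : H331.Con (switch X j u y) m)
    (mu : m u ≠ j + 1) (my : m y ≠ j + 1) :
    ∃ (P : B → Prop) (Q : W → Prop), (∀ a i, i ≠ m a → (P a ↔ Q (X.e i a))) ∧ P y ∧ ¬ P u := by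
  classical
  obtain ⟨z, hz⟩ := exists_sides L hS m hm
  -- the edge of the 2-factor at `b` with the side `t` on its left
  have z1 : ∀ a b c t : ZMod 2, b + c = 0 → c + a = 1 → (a = t ∧ b ≠ t) ∨ (b = t ∧ a ≠ t) := by
    decide
  have hcol : ∀ (t : ZMod 2) b, ∃ k, ∀ i, i ≠ m b → (z (L.c (i + 2) b) = t ↔ i = k) ∧ k ≠ m b := by
    intro t b
    have a1 := hz (m b) b
    have a2 := hz (m b + 1) b
    rw [if_pos rfl] at a1
    rw [if_neg (fne1 _), f11, f12] at a2
    rcases z1 _ _ _ t a1 a2 with ⟨h1, h2⟩ | ⟨h1, h2⟩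
    · refine ⟨m b + 1, fun i hi => ⟨?_, fne1 _⟩⟩
      rcases fcase i (m b) with rfl | rfl | rfl
      · exact absurd rfl hi
      · rw [f12]; exact iff_of_true h1 rfl
      · rw [f22]; exact iff_of_false h2 (fne21 _)
    · refine ⟨m b + 2, fun i hi => ⟨?_, fne2 _⟩⟩
      rcases fcase i (m b) with rfl | rfl | rfl
      · exact absurd rfl hi
      · rw [f12]; exact iff_of_false h2 (fne12 _)
      · rw [f22]; exact iff_of_true h1 rfl
  choose κ hκ using hcol
  have κm : ∀ t b, κ t b ≠ m b := fun t b => (hκ t b _ (fne1 _)).2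
  have κz : ∀ t b, z (L.c (κ t b + 2) b) = t := fun t b => (hκ t b _ (κm t b)).1.2 rfl
  have hinj : ∀ t, Function.Injective fun b => X.e (κ t b) b := by
    intro t b b' hbb
    simp only at hbb
    by_cases hk : κ t b = κ t b'
    · rw [hk] at hbb
      exact (X.e _).injective hbb
    · exfalso
      obtain ⟨k, hk'⟩ := H940.exists_wcol hm (X.e (κ t b) b)
      have n1 : κ t b ≠ k := (hk' _).1 (by rw [Equiv.symm_apply_apply]; exact κm t b)
      have n2 : κ t b' ≠ k := (hk' _).1 (by rw [hbb, Equiv.symm_apply_apply]; exact κm t b')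
      have e1 : z (H551.cw L (κ t b + 2) (X.e (κ t b) b)) = t := by rw [H551.cw_i2, κz]
      have e2 : z (H551.cw L (κ t b' + 2) (X.e (κ t b) b)) = t := by rw [hbb, H551.cw_i2, κz]
      have e3 := hz (k + 2) ((X.e (k + 2)).symm (X.e (κ t b) b))
      rw [if_neg ((hk' _).2 (fne2 _)), H551.cw_symm1, H551.cw_symm2, f21, f22] at e3
      have e4 : ∀ a : ZMod 2, a + a ≠ 1 := by decide
      generalize X.e (κ t b) b = w at e1 e2 e3
      rcases (fcase (κ t b) k).resolve_left n1 with h1 | h1 <;>
        rcases (fcase (κ t b') k).resolve_left n2 with h2 | h2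
      · exact hk (h1.trans h2.symm)
      · rw [h1, f12] at e1
        rw [h2, f22] at e2
        rw [e1, e2] at e3
        exact e4 _ e3
      · rw [h1, f22] at e1
        rw [h2, f12] at e2
        rw [e1, e2] at e3
        exact e4 _ e3
      · exact hk (h1.trans h2.symm)
  let t : ZMod 2 := z (L.c j u)
  let σ : B ≃ W := Equiv.ofBijective _ (H331.bij_of_inj X _ (hinj t))
  let τ : B ≃ W := Equiv.ofBijective _ (H331.bij_of_inj X _ (hinj (t + 1)))
  let π : Equiv.Perm B := σ.trans τ.symm
  have τπ : ∀ b, τ (π b) = σ b := fun b => Equiv.apply_symm_apply _ _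
  have κu : κ t u = j + 1 := ((hκ t u _ mu.symm).1.1 (by rw [f12])).symm
  have κy : κ t y = j + 1 := ((hκ t y _ my.symm).1.1 (by rw [f12, ← hF])).symm
  have two : ∀ b i, i ≠ m b → i = κ t b ∨ i = κ (t + 1) b := by
    intro b i hi
    have : ∀ a t : ZMod 2, a = t ∨ a = t + 1 := by decide
    rcases this (z (L.c (i + 2) b)) t with h1 | h1
    · exact Or.inl ((hκ _ b i hi).1.1 h1)
    · exact Or.inr ((hκ _ b i hi).1.1 h1)
  by_cases horb : ∃ n : ℕ, (π ^ n) y = u
  · exfalso
    have h1 := hc (fun x => Arc π y u (π.symm x)) (fun w => Arc π y u (π.symm (τ.symm w))) (by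
      intro a i hi
      by_cases h5 : i = j + 1 ∧ (a = u ∨ a = y)
      · obtain ⟨rfl, rfl | rfl⟩ := h5
        · rw [swu, ← κy, show X.e (κ t y) y = σ y from rfl, ← τπ, Equiv.symm_apply_apply,
            Equiv.symm_apply_apply]
          exact iff_of_true (Arc.last horb h.symm (Equiv.apply_symm_apply _ _)) (Arc.start h.symm)
        · rw [swy, ← κu, show X.e (κ t u) u = σ u from rfl, ← τπ, Equiv.symm_apply_apply,
            Equiv.symm_apply_apply]
          exact iff_of_false (Arc.not_back horb (Equiv.apply_symm_apply _ _)) Arc.not_end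
      · rw [swOld h5]
        rcases two a i hi with rfl | rfl
        · rw [show X.e (κ t a) a = σ a from rfl, ← τπ, Equiv.symm_apply_apply,
            Equiv.symm_apply_apply]
          have n1 : a ≠ u := fun h' => h5 ⟨by rw [h', κu], Or.inl h'⟩
          have n2 : a ≠ y := fun h' => h5 ⟨by rw [h', κy], Or.inr h'⟩
          have e1 : π (π.symm a) = a := Equiv.apply_symm_apply _ _
          exact ⟨fun h' => e1 ▸ Arc.next h' (by rw [e1]; exact n1),
            fun h' => Arc.prev (by rw [e1]; exact h') (by rw [e1]; exact n2)⟩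
        · rw [show X.e (κ (t + 1) a) a = τ a from rfl, Equiv.symm_apply_apply])
      ⟨u, Arc.last horb h.symm (Equiv.apply_symm_apply _ _)⟩ y
    exact Arc.not_back horb (Equiv.apply_symm_apply _ _) h1
  · refine ⟨fun x => π.SameCycle y x, fun w => π.SameCycle y (τ.symm w), ?_,
      Equiv.Perm.SameCycle.refl _ _, fun h' => horb h'.exists_nat_pow_eq⟩
    intro a i hi
    show π.SameCycle y a ↔ π.SameCycle y (τ.symm (X.e i a))
    rcases two a i hi with rfl | rfl
    · rw [show X.e (κ t a) a = σ a from rfl, ← τπ, Equiv.symm_apply_apply]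
      exact Equiv.Perm.sameCycle_apply_right.symm
    · rw [show X.e (κ (t + 1) a) a = τ a from rfl, Equiv.symm_apply_apply]

end Vale.Agent.N039
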