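import Vale.Agent.N039.Phase
import Vale.Agent.P039.H84.K4

/-! Hamiltonian cycles of webs which avoid an edge at a vertex and contain TWO prescribed edges of
the same orientation on faces at this vertex. -/

set_option linter.all false

namespace Vale.Agent.N039

open Finset Vale.Agent.P039 Vale.Agent.P039.Bn Vale.Agent.P039.H84

variable {B W V : Type}

section Core

variable [Fintype B] [Fintype W] [Fintype V]

open Classical in
/-- the sign rule for cycles, and the forced orientation at the root faces -/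
theorem keyCyc (M : PMap B W V) (hS : M.Sph) (b0 : B) :
    ∃ ur : Bz.BOff b0 → Fin 3 → ℝ,
      ∀ (f g : Bz.BOff b0 → Fin 3) (φ ψ : Bz.BOff b0 ≃ Bz.VOff M b0),
      (∀ b, Bz.Fo M b0 b (f b) = some (φ b)) → (∀ b, Bz.Fo M b0 b (g b) = some (ψ b)) →
      Bz.Disj f g → ∀ (C : Finset (Bz.BOff b0)) (b₁ : Bz.BOff b0),
      (∀ b, b ∈ C ↔ Equiv.Perm.SameCycle (φ.trans ψ.symm) b₁ b) →
      (Odd C.card ∧ 0 < (-1 : ℝ) ^ ((C.card + 1) / 2) *
        ((∏ b ∈ C, H545.eps (g b - f b) : ℤ) : ℝ) * ∑ b ∈ C, (ur b (f b) - ur b (g b))) ∧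
      ∀ b ∈ C, ∀ j0, j0 ≠ f b → j0 ≠ g b → M.c j0 b.1 = M.c j0 b0 →
        0 < ((H545.eps (g b - f b) : ℤ) : ℝ) * ∑ b ∈ C, (ur b (f b) - ur b (g b)) := by
  obtain ⟨u, hu⟩ := cyc_pmapK M hS b0
  set ur : Bz.BOff b0 → Fin 3 → ℝ := fun b c => (u b.1 c : ℝ) with hur
  refine ⟨ur, ?_⟩
  intro f g φ ψ hφ hψ hd C b₁ hC
  obtain ⟨⟨⟨k, hk⟩, h3, hpos⟩, hor⟩ := hu _ _ _ _ (Bt.H668.isAlt_ex hφ hψ hd hC) (by
    rw [mem_map]
    rintro ⟨x, -, hx⟩
    exact x.2 hx) (Bt.H668.isMatch_ex hψ)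
  rw [card_map] at hk h3 hpos
  rw [prod_map, sum_map] at hpos
  rw [sum_map] at hor
  have e2 : ∏ x ∈ C, H443.eps (Bt.H668.ex b0 g ((Function.Embedding.subtype _) x) -
      Bt.H668.ex b0 f ((Function.Embedding.subtype _) x)) = ∏ b ∈ C, H545.eps (g b - f b) := by
    refine prod_congr rfl fun x _ => ?_
    show H443.eps (Bt.H668.ex b0 g x.1 - Bt.H668.ex b0 f x.1) = _
    rw [Bt.H668.ex_apply, Bt.H668.ex_apply]
    rfl
  have e3 : ∑ x ∈ C, (u ((Function.Embedding.subtype _) x)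
        (Bt.H668.ex b0 f ((Function.Embedding.subtype _) x)) -
      u ((Function.Embedding.subtype _) x) (Bt.H668.ex b0 g ((Function.Embedding.subtype _) x))) =
      ∑ b ∈ C, (u b.1 (f b) - u b.1 (g b)) := by
    refine sum_congr rfl fun x _ => ?_
    show u x.1 (Bt.H668.ex b0 f x.1) - u x.1 (Bt.H668.ex b0 g x.1) = _
    rw [Bt.H668.ex_apply, Bt.H668.ex_apply]
  rw [e2, e3] at hpos
  rw [e3] at hor
  have e4 : ((∑ b ∈ C, (u b.1 (f b) - u b.1 (g b)) : ℤ) : ℝ) =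
      ∑ b ∈ C, (ur b (f b) - ur b (g b)) := by
    rw [hur]; push_cast; rfl
  refine ⟨⟨⟨k, hk⟩, ?_⟩, ?_⟩
  · have e1 : (C.card + 1) / 2 = (C.card - 3) / 2 + 2 := by omega
    have h4 : (0 : ℝ) < (((-1 : ℤ) ^ ((C.card - 3) / 2) * (∏ b ∈ C, H545.eps (g b - f b)) *
        ∑ b ∈ C, (u b.1 (f b) - u b.1 (g b)) : ℤ) : ℝ) := by exact_mod_cast hpos
    rw [Int.cast_mul, e4] at h4
    rw [e1, pow_add]
    have e5 : (-1 : ℝ) ^ 2 = 1 := by norm_num
    rw [e5, mul_one]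
    rw [Int.cast_mul, Int.cast_pow] at h4
    simpa using h4
  · intro b hbC j0 h1 h2 h5
    have h6 := hor b.1 (mem_map.2 ⟨b, hbC, rfl⟩) j0 (by rw [Bt.H668.ex_apply]; exact h1)
      (by rw [Bt.H668.ex_apply]; exact h2) h5
    rw [Bt.H668.ex_apply, Bt.H668.ex_apply] at h6
    have h7 : (0 : ℝ) < ((H443.eps (g b - f b) * ∑ b ∈ C, (u b.1 (f b) - u b.1 (g b)) : ℤ) : ℝ) := by
      exact_mod_cast h6
    rw [Int.cast_mul, e4] at h7
    exact h7

theorem fin3_a : ∀ {x y j s : Fin 3}, s ≠ 0 → x = j + s → y ≠ x → y ≠ j → y - x = s := by decide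

theorem fin3_b : ∀ {x y j s : Fin 3}, s ≠ 0 → x ≠ y → x ≠ j → y ≠ j → x = j + s ∨ y = j + s := by
  decide

theorem fin3_c : ∀ {x y j k : Fin 3}, x ≠ y → x ≠ j → y ≠ j → x ≠ k → y ≠ k → j = k := by decide

theorem fin3_d : ∀ {j s : Fin 3}, s ≠ 0 → j + s ≠ j := by decide

/-- **Good matchings with prescribed values at two black vertices on root faces.** -/
theorem good_at2 (M : PMap B W V) (hS : M.Sph) (b0 b1 b2 : B) (hb1 : b1 ≠ b0) (hb2 : b2 ≠ b0)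
    (j1 j2 s : Fin 3) (hs : s ≠ 0) (hF1 : M.c j1 b1 = M.c j1 b0) (hF2 : M.c j2 b2 = M.c j2 b0)
    (hex : ∃ f g, Bz.Mat (Bz.Fo M b0) f ∧ Bz.Mat (Bz.Fo M b0) g ∧ Bz.Disj f g) :
    ∃ f, Bz.Mat (Bz.Fo M b0) f ∧ Bz.Good (Bz.Fo M b0) f ∧ f ⟨b1, hb1⟩ = j1 + s ∧
      f ⟨b2, hb2⟩ = j2 + s := by
  classical
  obtain ⟨ur, key⟩ := keyCyc M hS b0
  obtain ⟨f₀, g₀, ⟨φ₀, hφ₀⟩, ⟨ψ₀, hψ₀⟩, hd₀⟩ := hex
  have hcard : Fintype.card (Bz.BOff b0) = Fintype.card (Bz.VOff M b0) := Fintype.card_congr φ₀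
  set F := Bz.Fo M b0 with hFdef
  have hno : ∀ (b : Bz.BOff b0) j, M.c j b.1 = M.c j b0 → ∀ f, H545.Mat F f → f b ≠ j := by
    intro b j hF f hf h
    apply hf.1 b
    rw [h, hFdef]
    unfold Bz.Fo
    rw [dif_neg]
    intro h
    exact h j hF.symm
  set x1 : Bz.BOff b0 := ⟨b1, hb1⟩ with hx1
  set x2 : Bz.BOff b0 := ⟨b2, hb2⟩ with hx2
  obtain ⟨jr, hj1, hj2⟩ : ∃ jr : Bz.BOff b0 → Fin 3, jr x1 = j1 ∧ jr x2 = j2 := by
    refine ⟨fun b => if b = x1 then j1 else j2, if_pos rfl, ?_⟩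
    by_cases h : x2 = x1
    · show (if x2 = x1 then j1 else j2) = j2
      rw [if_pos h]
      have h1 : b2 = b1 := congrArg Subtype.val h
      have hF2' : M.c j2 x1.1 = M.c j2 b0 := by rw [← hF2, h1]
      exact fin3_c (hd₀ x1) (hno x1 j1 hF1 _ (H545.mat_of hφ₀)) (hno x1 j1 hF1 _ (H545.mat_of hψ₀))
        (hno x1 j2 hF2' _ (H545.mat_of hφ₀)) (hno x1 j2 hF2' _ (H545.mat_of hψ₀))
    · exact if_neg h
  have hP : ∀ b ∈ ({x1, x2} : Finset (Bz.BOff b0)), M.c (jr b) b.1 = M.c (jr b) b0 := by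
    intro b hb
    rcases mem_insert.1 hb with rfl | hb
    · rw [hj1]; exact hF1
    · rw [mem_singleton.1 hb, hj2]; exact hF2
  have hs0 : ((H545.eps s : ℤ) : ℝ) = 1 ∨ ((H545.eps s : ℤ) : ℝ) = -1 := by
    unfold H545.eps
    split_ifs <;> simp
  obtain ⟨f, hf, hfj, hne⟩ := fourP F ur (by
      intro f g hf hg hd C hC
      obtain ⟨φ, hφ⟩ := H545.of_mat hcard hf
      obtain ⟨ψ, hψ⟩ := H545.of_mat hcard hg
      obtain ⟨b₁, hb₁⟩ := hC.1
      exact (key f g φ ψ hφ hψ hd C b₁ (H545.minInv_sameCycle hφ hψ hC hb₁)).1)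
    {x1, x2} (insert_nonempty _ _) card_le_two (fun b => jr b + s) hs0 (by
      intro f g hf hg hd b hb hfj C hC hbC
      obtain ⟨φ, hφ⟩ := H545.of_mat hcard hf
      obtain ⟨ψ, hψ⟩ := H545.of_mat hcard hg
      have h1 := (key f g φ ψ hφ hψ hd C b (H545.minInv_sameCycle hφ hψ hC hbC)).2 b hbC (jr b)
        (hno b _ (hP b hb) f hf).symm (hno b _ (hP b hb) g hg).symm (hP b hb)
      rwa [fin3_a hs hfj (hd b).symm (hno b _ (hP b hb) g hg)] at h1) (by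
      intro f g hf hg hd b hb
      exact fin3_b hs (hd b) (hno b _ (hP b hb) f hf) (hno b _ (hP b hb) g hg))
    ⟨f₀, g₀, H545.mat_of hφ₀, H545.mat_of hψ₀, hd₀⟩
  obtain ⟨φ, hφ⟩ := H545.of_mat hcard hf
  refine ⟨f, ⟨φ, hφ⟩, ?_, ?_, ?_⟩
  · refine good_of (cl := fun v => (M.surj v.1).choose) ?_ hcard ?_ hφ ?_
    · intro b j v h
      have h1 := Bt.H668.Fo_eq_some.mp h
      obtain ⟨b', hb'⟩ := (M.surj v.1).choose_spec
      exact M.cls _ _ b' b.1 (hb'.trans h1.symm)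
    · intro f g φ ψ hφ hψ hd C b₁ hC
      exact (key f g φ ψ hφ hψ hd C b₁ hC).1.1
    · convert hne using 2
  · rw [hfj x1 (mem_insert_self _ _), hj1]
  · rw [hfj x2 (mem_insert_of_mem (mem_singleton_self _)), hj2]

end Core

/-- an edge at the black vertex `b0` is avoided, two edges on faces at `b0` are contained -/
def BK2 (M : PMap B W V) : Prop :=
  ∀ (s j1 j2 : Fin 3) (b0 b1 b2 : B) (i : Fin 3), s ≠ 0 → M.c j1 b0 = M.c j1 b1 →
    M.c j2 b0 = M.c j2 b2 → ¬ (b0 = b1 ∧ i = j1 + s) → ¬ (b0 = b2 ∧ i = j2 + s) →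
    ∃ m, Bz.HamM M m ∧ m b0 = i ∧ m b1 ≠ j1 + s ∧ m b2 ≠ j2 + s

/-- the same for a white vertex -/
def WK2 (M : PMap B W V) : Prop :=
  ∀ (s j1 j2 : Fin 3) (w0 : W) (b1 b2 : B) (i : Fin 3), s ≠ 0 → M.cw j1 w0 = M.c j1 b1 →
    M.cw j2 w0 = M.c j2 b2 → ¬ ((M.e i).symm w0 = b1 ∧ i = j1 + s) →
    ¬ ((M.e i).symm w0 = b2 ∧ i = j2 + s) →
    ∃ m, Bz.HamM M m ∧ m ((M.e i).symm w0) = i ∧ m b1 ≠ j1 + s ∧ m b2 ≠ j2 + s

theorem bk2_core [Fintype B] [Fintype W] [Fintype V] (M : PMap B W V) (hS : M.Sph)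
    (h3 : Bz.C3 M) (h4 : Bz.C4 M) : BK2 M := by
  intro s j1 j2 b0 b1 b2 i hs hF1 hF2 hne1 hne2
  by_cases hb1 : b1 = b0
  · subst hb1
    obtain ⟨m, hm, hi, h⟩ := bk_all B W V M hS h3 j2 b1 b2 i (j2 + s) hF2 (fin3_d hs) hne2
    exact ⟨m, hm, hi, fun h => hne1 ⟨rfl, hi.symm.trans h⟩, h⟩
  by_cases hb2 : b2 = b0
  · subst hb2
    obtain ⟨m, hm, hi, h⟩ := bk_all B W V M hS h3 j1 b2 b1 i (j1 + s) hF1 (fin3_d hs) hne1
    exact ⟨m, hm, hi, h, fun h => hne2 ⟨rfl, hi.symm.trans h⟩⟩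
  obtain ⟨f, h1, h2, h5, h6⟩ := good_at2 M hS b0 b1 b2 hb1 hb2 j1 j2 s hs hF1.symm hF2.symm
    (H794.pairStmt B W V M hS h3 h4 b0)
  obtain ⟨m, hm, hi, hmf⟩ := hamK M hS b0 f h1 h2 i
  exact ⟨m, hm, hi, by rw [← h5]; exact hmf b1 hb1, by rw [← h6]; exact hmf b2 hb2⟩

/-- a Hamiltonian cycle of the mirror image -/
theorem ham_mir [Finite B] (M : PMap B W V) {m' : W → Fin 3} (h : Bz.HamM (mir M) m') :
    ∃ m, Bz.HamM M m ∧ ∀ b k, m b = k ↔ m' (M.e k b) = -k := by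
  obtain ⟨hbij, hconn⟩ := h
  let φ : W ≃ B := Equiv.ofBijective _ hbij
  have hφ : ∀ w, φ w = (M.e (-(m' w))).symm w := fun w => rfl
  have hm : ∀ b, M.e (-(m' (φ.symm b))) b = φ.symm b := by
    intro b
    have h1 := hφ (φ.symm b)
    rw [Equiv.apply_symm_apply] at h1
    exact (Equiv.eq_symm_apply _).1 h1
  have hkey : ∀ (w : W) (k : Fin 3), -(m' (φ.symm ((M.e (-k)).symm w))) = -k → m' w = k := by
    intro w k hk
    have h1 := hm ((M.e (-k)).symm w)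
    rw [hk, Equiv.apply_symm_apply] at h1
    rw [h1]
    exact neg_injective hk
  refine ⟨fun b => -(m' (φ.symm b)), ⟨?_, ?_⟩, ?_⟩
  · have : (fun b => M.e (-(m' (φ.symm b))) b) = φ.symm := funext hm
    rw [this]
    exact φ.symm.bijective
  · intro S T hST hne' b
    have hT := hconn T S (by
      intro w k hk
      rw [mir_e]
      have h1 := hST ((M.e (-k)).symm w) (-k) (fun h2 => hk (hkey w k h2.symm).symm)
      rw [Equiv.apply_symm_apply] at h1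
      exact h1.symm)
    obtain ⟨b', hb'⟩ := hne'
    obtain ⟨l, hl⟩ := Bz.exists_ne (-(m' (φ.symm b')))
    obtain ⟨k, hk⟩ := Bz.exists_ne (-(m' (φ.symm b)))
    exact (hST b k hk).2 (hT ⟨_, (hST b' l hl).1 hb'⟩ _)
  · intro b k
    constructor
    · intro h1
      have h1' : -(m' (φ.symm b)) = k := h1
      have h2 := hm b
      rw [h1'] at h2
      rw [h2, ← h1', neg_neg]
    · intro h1
      show -(m' (φ.symm b)) = k
      have h2 : φ (M.e k b) = b := by rw [hφ, h1, neg_neg, Equiv.symm_apply_apply]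
      rw [← h2, Equiv.symm_apply_apply, h1, neg_neg]

theorem wk2_of [Finite B] (M : PMap B W V) (h : BK2 (mir M)) : WK2 M := by
  intro s j1 j2 w0 b1 b2 i hs hF1 hF2 hne1 hne2
  have a1 : ∀ j b, M.cw j w0 = M.c j b → (mir M).c (-j) w0 = (mir M).c (-j) (M.e (j + s) b) := by
    intro j b hF
    rw [mir_c, mir_c, neg_neg, hF, M.cw_e _ _ (fin3_d hs)]
  have a2 : ∀ j b, ¬ ((M.e i).symm w0 = b ∧ i = j + s) →
      ¬ (w0 = M.e (j + s) b ∧ -i = -j + -s) := by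
    rintro j b hne ⟨h1, h2⟩
    rw [← neg_add] at h2
    obtain rfl := neg_injective h2
    exact hne ⟨by rw [h1, Equiv.symm_apply_apply], rfl⟩
  obtain ⟨m', hm', hi, h1, h2⟩ := h (-s) (-j1) (-j2) w0 (M.e (j1 + s) b1) (M.e (j2 + s) b2) (-i)
    (neg_ne_zero.2 hs) (a1 j1 b1 hF1) (a1 j2 b2 hF2) (a2 j1 b1 hne1) (a2 j2 b2 hne2)
  obtain ⟨m, hm, hmm⟩ := ham_mir M hm'
  refine ⟨m, hm, (hmm _ _).2 (by rw [Equiv.apply_symm_apply, hi]), fun h3 => h1 ?_, fun h3 => h2 ?_⟩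
  · rw [(hmm _ _).1 h3, neg_add]
  · rw [(hmm _ _).1 h3, neg_add]

section Glue

open Vale.Agent.P039.Sk

variable {X : Web B W} {S : B → Prop} {T : W → Prop}

theorem glueBK2 [Finite B] [Finite W] (L : Lab X V) (C : H331.Cut3 X S T)
    (b1K : BK2 (Bz.ofLab (L1 C L))) (w1K : WK2 (Bz.ofLab (L1 C L)))
    (b2K : BK2 (Bz.ofLab (L2 C L))) (h1A : Bz.HA (Bz.ofLab (L1 C L)))
    (h2A : Bz.HA (Bz.ofLab (L2 C L))) : BK2 (Bz.ofLab L) := by
  classical
  intro s j1 j2 b0 b1 b2 i hs hF1 hF2 hne1 hne2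
  change L.c j1 b0 = L.c j1 b1 at hF1
  change L.c j2 b0 = L.c j2 b2 at hF2
  -- one may exchange the two contained edges
  have sym : ∀ (j1 j2 : Fin 3) (b1 b2 : B), L.c j1 b0 = L.c j1 b1 → L.c j2 b0 = L.c j2 b2 →
      ¬ (b0 = b1 ∧ i = j1 + s) → ¬ (b0 = b2 ∧ i = j2 + s) → S b1 → ¬ S b2 →
      ∃ m, Bz.HamM (Bz.ofLab L) m ∧ m b0 = i ∧ m b1 ≠ j1 + s ∧ m b2 ≠ j2 + s := by
    intro j1 j2 b1 b2 hF1 hF2 hne1 hne2 hs1 hs2
    by_cases hs0 : S b0
    · obtain ⟨m1, hm1, hi, hj1, -⟩ := b1K s j1 j1 ⟨b0, hs0⟩ ⟨b1, hs1⟩ ⟨b1, hs1⟩ i hs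
        (Subtype.ext hF1) (Subtype.ext hF1) (fun h => hne1 ⟨congrArg Subtype.val h.1, h.2⟩)
        (fun h => hne1 ⟨congrArg Subtype.val h.1, h.2⟩)
      obtain ⟨r, hr⟩ := miss C _ hm1
      have hc : (Bz.ofLab (L2 C L)).c j2 none = (Bz.ofLab (L2 C L)).c j2 (some ⟨b2, hs2⟩) :=
        Subtype.ext (by
          change L.c j2 (C.bb (j2 + 1)) = L.c j2 b2
          rw [← cross C L j2 hs0 hs2 hF2, hF2])
      obtain ⟨m2, hm2, hr2, hj2, -⟩ := b2K s j2 j2 none (some ⟨b2, hs2⟩) (some ⟨b2, hs2⟩) r hs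
        hc hc (fun h => by simp at h) (fun h => by simp at h)
      obtain ⟨m, hm, ha, hb⟩ := glueM L C _ _ hm1 hm2 hr hr2
      exact ⟨m, hm, by rw [ha b0 hs0, hi], by rw [ha b1 hs1]; exact hj1,
        by rw [hb b2 hs2]; exact hj2⟩
    · have hF : L.c j1 b1 = L.c j1 (C.bb (j1 + 1)) := cross C L j1 hs1 hs0 hF1.symm
      obtain ⟨m2, hm2, hi, hj1, hj2⟩ := b2K s j1 j2 (some ⟨b0, hs0⟩) none (some ⟨b2, hs2⟩) i hs
        (Subtype.ext (by
          change L.c j1 b0 = L.c j1 (C.bb (j1 + 1))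
          rw [hF1, hF])) (Subtype.ext hF2) (fun h => by simp at h)
        (fun h => hne2 ⟨congrArg Subtype.val (Option.some.inj h.1), h.2⟩)
      have hbb : ((Bz.ofLab (L1 C L)).e (m2 none)).symm none =
          ⟨C.bb (m2 none), C.hb (m2 none)⟩ := by
        rw [Equiv.symm_apply_eq]
        exact (C.X1_none _).symm
      have hc : (Bz.ofLab (L1 C L)).cw j1 none = (Bz.ofLab (L1 C L)).c j1 ⟨b1, hs1⟩ :=
        Subtype.ext (by
          rw [L1_white]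
          exact hF.symm)
      obtain ⟨m1, hm1, hr, hk1, -⟩ := w1K s j1 j1 none ⟨b1, hs1⟩ ⟨b1, hs1⟩ (m2 none) hs hc hc
        (fun h => hj1 h.2) (fun h => hj1 h.2)
      rw [hbb] at hr
      obtain ⟨m, hm, ha, hb⟩ := glueM L C _ _ hm1 hm2 hr rfl
      exact ⟨m, hm, by rw [hb b0 hs0, hi], by rw [ha b1 hs1]; exact hk1,
        by rw [hb b2 hs2]; exact hj2⟩
  by_cases hs1 : S b1 <;> by_cases hs2 : S b2
  · by_cases hs0 : S b0
    · obtain ⟨m1, hm1, hi, hj1, hj2⟩ := b1K s j1 j2 ⟨b0, hs0⟩ ⟨b1, hs1⟩ ⟨b2, hs2⟩ i hs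
        (Subtype.ext hF1) (Subtype.ext hF2) (fun h => hne1 ⟨congrArg Subtype.val h.1, h.2⟩)
        (fun h => hne2 ⟨congrArg Subtype.val h.1, h.2⟩)
      obtain ⟨r, hr⟩ := miss C _ hm1
      obtain ⟨m2, hm2, hr2⟩ := h2A none r
      obtain ⟨m, hm, ha, hb⟩ := glueM L C _ _ hm1 hm2 hr hr2
      exact ⟨m, hm, by rw [ha b0 hs0, hi], by rw [ha b1 hs1]; exact hj1,
        by rw [ha b2 hs2]; exact hj2⟩
    · have hG1 : L.c j1 b1 = L.c j1 (C.bb (j1 + 1)) := cross C L j1 hs1 hs0 hF1.symm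
      have hG2 : L.c j2 b2 = L.c j2 (C.bb (j2 + 1)) := cross C L j2 hs2 hs0 hF2.symm
      obtain ⟨m2, hm2, hi, hj1, hj2⟩ := b2K s j1 j2 (some ⟨b0, hs0⟩) none none i hs
        (Subtype.ext (by
          change L.c j1 b0 = L.c j1 (C.bb (j1 + 1))
          rw [hF1, hG1])) (Subtype.ext (by
          change L.c j2 b0 = L.c j2 (C.bb (j2 + 1))
          rw [hF2, hG2])) (fun h => by simp at h) (fun h => by simp at h)
      have hbb : ((Bz.ofLab (L1 C L)).e (m2 none)).symm none =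
          ⟨C.bb (m2 none), C.hb (m2 none)⟩ := by
        rw [Equiv.symm_apply_eq]
        exact (C.X1_none _).symm
      obtain ⟨m1, hm1, hr, hk1, hk2⟩ := w1K s j1 j2 none ⟨b1, hs1⟩ ⟨b2, hs2⟩ (m2 none) hs
        (Subtype.ext (by
          rw [L1_white]
          exact hG1.symm)) (Subtype.ext (by
          rw [L1_white]
          exact hG2.symm)) (fun h => hj1 h.2) (fun h => hj2 h.2)
      rw [hbb] at hr
      obtain ⟨m, hm, ha, hb⟩ := glueM L C _ _ hm1 hm2 hr rfl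
      exact ⟨m, hm, by rw [hb b0 hs0, hi], by rw [ha b1 hs1]; exact hk1,
        by rw [ha b2 hs2]; exact hk2⟩
  · exact sym j1 j2 b1 b2 hF1 hF2 hne1 hne2 hs1 hs2
  · obtain ⟨m, hm, h0, h1, h2⟩ := sym j2 j1 b2 b1 hF2 hF1 hne2 hne1 hs2 hs1
    exact ⟨m, hm, h0, h2, h1⟩
  · by_cases hs0 : S b0
    · obtain ⟨m1, hm1, hi⟩ := h1A ⟨b0, hs0⟩ i
      obtain ⟨r, hr⟩ := miss C _ hm1
      obtain ⟨m2, hm2, hr2, hj1, hj2⟩ := b2K s j1 j2 none (some ⟨b1, hs1⟩) (some ⟨b2, hs2⟩) r hs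
        (Subtype.ext (by
          change L.c j1 (C.bb (j1 + 1)) = L.c j1 b1
          rw [← cross C L j1 hs0 hs1 hF1, hF1])) (Subtype.ext (by
          change L.c j2 (C.bb (j2 + 1)) = L.c j2 b2
          rw [← cross C L j2 hs0 hs2 hF2, hF2])) (fun h => by simp at h) (fun h => by simp at h)
      obtain ⟨m, hm, ha, hb⟩ := glueM L C _ _ hm1 hm2 hr hr2
      exact ⟨m, hm, by rw [ha b0 hs0, hi], by rw [hb b1 hs1]; exact hj1,
        by rw [hb b2 hs2]; exact hj2⟩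
    · obtain ⟨m2, hm2, hi, hj1, hj2⟩ := b2K s j1 j2 (some ⟨b0, hs0⟩) (some ⟨b1, hs1⟩)
        (some ⟨b2, hs2⟩) i hs (Subtype.ext hF1) (Subtype.ext hF2)
        (fun h => hne1 ⟨congrArg Subtype.val (Option.some.inj h.1), h.2⟩)
        (fun h => hne2 ⟨congrArg Subtype.val (Option.some.inj h.1), h.2⟩)
      obtain ⟨m1, hm1, hr⟩ := h1A ⟨C.bb (m2 none), C.hb (m2 none)⟩ (m2 none)
      obtain ⟨m, hm, ha, hb⟩ := glueM L C _ _ hm1 hm2 hr rfl
      exact ⟨m, hm, by rw [hb b0 hs0, hi], by rw [hb b1 hs1]; exact hj1,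
        by rw [hb b2 hs2]; exact hj2⟩

theorem bk2_all : ∀ (B W V : Type) [Fintype B] [Fintype W] [Fintype V] (M : PMap B W V),
    M.Sph → Bz.C3 M → BK2 M := by
  have main : ∀ n : ℕ, ∀ (B W V : Type) [Fintype B] [Fintype W] [Fintype V] (M : PMap B W V),
      Nat.card B = n → M.Sph → Bz.C3 M → BK2 M := by
    intro n
    induction n using Nat.strong_induction_on with
    | _ n ih =>
      intro B W V _ _ _ M hn hS h3
      classical
      by_cases h4 : H331.C4 (Bz.toWeb M)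
      · exact bk2_core M hS h3 (B893.c4_of M h4)
      · unfold H331.C4 at h4
        push Not at h4
        obtain ⟨S, T, s1, t1, s2, t2, hlt⟩ := h4
        have h3' : H331.C3 (Bz.toWeb M) := H331.C3_toWeb M h3
        have h5 := h3' S T (Or.inl s1) (Or.inl s2)
        have h6 : H331.cutc (Bz.toWeb M) S T = 3 := by omega
        have hnf : B893.nf (Bz.toWeb M) = Nat.card B + 2 := by
          rw [B893.nf_eq (Bz.toLab M), Nat.card_eq_fintype_card, Nat.card_eq_fintype_card]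
          exact hS.card
        have key : ∀ (S : B → Prop) (T : W → Prop) (C : H331.Cut3 (Bz.toWeb M) S T),
            (∃ w, T w) → (∃ a, ¬ S a) → BK2 M := by
          intro S T C ht hs
          let L := Bz.toLab M
          obtain ⟨n1, n2⟩ := B893.sph_sides h3' hnf C
          have hc1 := H331.C3_X1 h3' C
          have hc2 := H331.C3_X2 h3' C
          let _ := Fintype.ofFinite {a // S a}
          let _ := Fintype.ofFinite {w // T w}
          let _ := Fintype.ofFinite {a // ¬ S a}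
          let _ := Fintype.ofFinite {w // ¬ T w}
          let _ := Fintype.ofFinite ↥(Sk.Cut3.In {a | S a} L)
          let _ := Fintype.ofFinite ↥((toSk C).Out L)
          have d1 : Bz.C3 (Bz.ofLab (L1 C L)) := H331.C3_ofLab _ hc1
          have d2 : Bz.C3 (Bz.ofLab (L2 C L)) := H331.C3_ofLab _ hc2
          have e1 : (Bz.ofLab (L1 C L)).Sph := ⟨Bz.conn_of_c3 _ d1, by
            rw [← Nat.card_eq_fintype_card, ← Nat.card_eq_fintype_card, ← B893.nf_eq (L1 C L)]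
            exact n1⟩
          have e2 : (Bz.ofLab (L2 C L)).Sph := ⟨Bz.conn_of_c3 _ d2, by
            rw [← Nat.card_eq_fintype_card, ← Nat.card_eq_fintype_card, ← B893.nf_eq (L2 C L)]
            exact n2⟩
          have l1 : Nat.card {a // S a} < n := by rw [← hn]; exact H331.card_X1 hs
          have l2 : Nat.card (Option {a // ¬ S a}) < n := by
            rw [← hn]; exact H331.card_X2 C ht
          have l1' : Nat.card (Option {w // T w}) < n := by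
            rw [← Nat.card_congr ((Bz.ofLab (L1 C L)).e 0)]
            exact l1
          refine glueBK2 L C (ih _ l1 _ _ _ _ rfl e1 d1)
            (wk2_of _ (ih _ l1' _ _ _ (mir (Bz.ofLab (L1 C L))) rfl (mir_sph _ e1 d1)
              (mir_c3 _ d1)))
            (ih _ l2 _ _ _ _ rfl e2 d2) (H867.webStmt _ _ _ _ e1 d1)
            (H867.webStmt _ _ _ _ e2 d2)
        rcases H331.exists_cut3 (Bz.toWeb M) S T h6 with ⟨⟨C⟩⟩ | ⟨⟨C⟩⟩
        · exact key S T C t1 s2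
        · refine key _ _ C t2 ?_
          obtain ⟨a, ha⟩ := s1
          exact ⟨a, fun h => h ha⟩
  intro B W V _ _ _ M hS h3
  exact main _ B W V M rfl hS h3

theorem wk2_all (B W V : Type) [Fintype B] [Fintype W] [Fintype V] (M : PMap B W V)
    (hS : M.Sph) (h3 : Bz.C3 M) : WK2 M :=
  wk2_of M (bk2_all _ _ _ (mir M) (mir_sph M hS h3) (mir_c3 M h3))

end Glue

end Vale.Agent.N039
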